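import Vale.Agent.P014T.Pq.Lev
import Vale.Agent.P004F.Pa.Exl
import Vale.Agent.P004F.Pa.Pk1

/-! # P014T, block PRESQ: the universal class, points, and one more prime -/

set_option linter.all false

open NumberField Matrix Submodule Set Sum
open scoped Pointwise Classical

noncomputable section

namespace Vale.Agent.P014T.Pq

open Vale.Agent.P022 Vale.Agent.P022K Vale.Agent.P022K.G2
open Vale.Agent.P027M.S (Inert)
open Vale.Agent.P022.H443 (inP)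
open Vale.Agent.P022E.GW (Ov Fb Gn)
open Vale.Agent.P004F.Pr (ac zero_ac mul_ac ac_zero one_ac ac_add)
open Vale.Agent.P004F.Pa (up ac_up sum_up ac_mk mk_zero nak)
open Vale.Agent.P004F.Pa.Xl (ev ev_vm ev_ker ex_mat)
open Kq (M2 F4 Gl Pk)

variable {R : Type} [CommRing R] {σ ι ι' β : Type} [Fintype σ] [Fintype ι] [Fintype ι']
  {γ : Gl R GQ σ} {τ c : GQ} {T T' : Finset ℕ} {D : β → Subgroup GQ} {q : Ps (σ ⊕ ι)}
  {p : Pk R GQ σ ι} {m : β → Matrix (Fin 2) (Fin p.g) R}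

theorem up_rl {L : Submodule R (Fin p.g → R)} (h : p.Rl γ τ ≤ L) : ac (p.Rm γ τ) (up L) = 0 :=
  funext fun i => (ac_up L _ i).trans ((mk_zero L).2 (h (subset_span (mem_range_self i))))

theorem ev_up {I : Type} [Fintype I] [DecidableEq I] (L : Submodule R (I → R)) (v : I → R) :
    ev (up L) v = L.mkQ v := sum_up L v

theorem mul_row {I : Type} {L : Submodule R (I → R)} {s s' : Type} [Fintype s'] (A : Matrix s s' R)
    {B : Matrix s' I R} (h : ∀ i, B i ∈ L) (i : s) : (A * B) i ∈ L := by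
  rw [show (A * B) i = A i ᵥ* B from rfl, vecMul_eq_sum]
  exact sum_mem fun j _ => smul_mem _ _ (h j)

namespace Lu

variable (h : Lu γ τ T c D q p m)
include h

/-- the universal class -/
theorem un {L : Submodule R (Fin p.g → R)} (hL : p.Rl γ τ ≤ L) :
    (fun g i => L.mkQ (p.u g i), fun b i => L.mkQ (m b i)) ∈ Sf _ T γ.ρ c D := by
  have := (h.bij _).mapsTo (up_rl hL)
  rwa [show (fun g => ac (p.u g) (up L)) = fun g i => L.mkQ (p.u g i) from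
      funext fun g => funext (ac_up L _),
    show (fun b => ac (m b) (up L)) = fun b i => L.mkQ (m b i) from
      funext fun b => funext (ac_up L _)] at this

theorem coc (g g' : GQ) (i : Fin 2) : (p.u (g * g') - p.u g - γ.ρ g * p.u g') i ∈ p.Rl γ τ := by
  have := congrFun ((h.un le_rfl).1.1 g g') i
  rw [Pi.add_apply, ac_mk] at this
  refine (mk_zero _).1 ?_
  show (p.Rl γ τ).mkQ (p.u (g * g') i - p.u g i - γ.ρ g i ᵥ* p.u g') = 0
  rw [map_sub, map_sub, show (p.Rl γ τ).mkQ (p.u (g * g') i) = _ from this, add_sub_cancel_left,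
    sub_self]

theorem lc : ∃ W : Subgroup GQ, IsOpen (W : Set GQ) ∧ ∀ w ∈ W, ∀ i, p.u w i ∈ p.Rl γ τ :=
  (h.un le_rfl).1.2.1.imp fun W e => ⟨e.1, fun w m i => (mk_zero _).1 (congrFun (e.2 w m) i)⟩

theorem unr {g : GQ} (hg : g ∈ In T) (i : Fin 2) : p.u g i ∈ p.Rl γ τ :=
  (mk_zero _).1 (congrFun ((h.un le_rfl).1.2.2.1 g hg) i)

theorem fr (i : Fin 2) : p.u c i ∈ p.Rl γ τ := (mk_zero _).1 (congrFun (h.un le_rfl).1.2.2.2 i)

theorem st {b : β} {g : GQ} (hg : g ∈ D b) (i : Fin 2) :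
    p.u g i - (γ.ρ g - 1) i ᵥ* m b ∈ p.Rl γ τ := by
  have := congrFun ((h.un le_rfl).2 b g hg) i
  rw [ac_mk] at this
  exact (mk_zero _).1 ((map_sub _ _ _).trans (sub_eq_zero.2 this))

/-- right translation by an element on which the universal class vanishes -/
theorem tr {g w : GQ} (hw : ∀ i, p.u w i ∈ p.Rl γ τ) (i : Fin 2) :
    (p.u (g * w) - p.u g) i ∈ p.Rl γ τ := by
  have := add_mem (h.coc g w i) (mul_row (γ.ρ g) hw i)
  exact (sub_add_cancel (p.u (g * w) i - p.u g i) _).subst (motive := (· ∈ _)) this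

theorem sH {Z : Set GQ} {x : ι} (m : q.t (inr x) ∈ Z) (i : Fin 2) : p.S x i ∈ p.Us γ τ Z := by
  rw [← sub_add_cancel (p.S x i) (p.u (q.t (inr x)) i)]
  exact add_mem (mem_sup_right (h.hS x i)) (mem_sup_left (subset_span ⟨_, m, i, rfl⟩))

/-- the values of the universal class generate -/
theorem top {L : Submodule R (Fin p.g → R)} (hL : p.Rl γ τ ≤ L) (hu : ∀ g i, p.u g i ∈ L)
    (hm : ∀ b i, m b i ∈ L) : L = ⊤ := by
  have z : ∀ A : Matrix (Fin 2) _ R, (∀ i, A i ∈ L) → ac A (up L) = ac A 0 := fun A m => by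
    rw [ac_zero]
    exact funext fun i => (ac_up L _ i).trans ((mk_zero L).2 (m i))
  have := (h.bij _).injOn (up_rl hL) (ac_zero _) (Prod.ext (funext fun g => z _ (hu g))
    (funext fun b => z _ (hm b)))
  refine eq_top_iff.2 fun v _ => (mk_zero L).1 ?_
  rw [← sum_up, this]
  simp

/-- `p.g` values suffice -/
theorem gens [IsLocalRing R] : ∃ (f : Fin p.g → GQ) (e : Fin p.g → Fin 2),
    span R (range fun x => p.u (f x) (e x)) ⊔ (p.Rl γ τ ⊔ span R {v | ∃ b i, v = m b i}) = ⊤ := by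
  obtain ⟨f, hf⟩ := nak (fun a : GQ × Fin 2 => p.u a.1 a.2)
    (p.Rl γ τ ⊔ span R {v | ∃ b i, v = m b i}) (h.top (le_sup_left.trans le_sup_right)
      (fun g i => mem_sup_left (subset_span (mem_range_self (g, i))))
      fun b i => mem_sup_right (mem_sup_right (subset_span ⟨b, i, rfl⟩)))
  exact ⟨fun x => (f x).1, fun x => (f x).2, hf⟩

theorem det {b : β} {g : GQ} (hg : g ∈ D b) (i : Fin 2) :
    (γ.ρ g - 1).det • m b i ∈ span R (range (p.u g)) ⊔ p.Rl γ τ := by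
  have := mul_row (L := span R (range (p.u g)) ⊔ p.Rl γ τ) (γ.ρ g - 1).adjugate
    (B := (γ.ρ g - 1) * m b) (fun j => by
      show (γ.ρ g - 1) j ᵥ* m b ∈ _
      rw [← sub_sub_cancel (p.u g j) (_ ᵥ* _)]
      exact sub_mem (mem_sup_left (subset_span ⟨j, rfl⟩)) (mem_sup_right (h.st hg j))) i
  rwa [← Matrix.mul_assoc, adjugate_mul, Matrix.smul_mul, Matrix.one_mul] at this

/-- **generation** up to the factor `δ` by finitely many values -/
theorem gen [IsLocalRing R] {g : β → GQ} (hg : ∀ b, g b ∈ D b) {δ : R}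
    (hδ : ∀ b, (γ.ρ (g b) - 1).det ∣ δ) : ∃ (f : Fin p.g → GQ) (e : Fin p.g → Fin 2), ∀ v,
    δ • v ∈ span R (range fun x => p.u (f x) (e x)) ⊔
      (p.Rl γ τ ⊔ span R {v | ∃ b i, v = p.u (g b) i}) := by
  obtain ⟨f, e, k⟩ := h.gens
  refine ⟨f, e, fun v => ?_⟩
  obtain ⟨x, hx, y', hy', rfl⟩ := mem_sup.1 (k.ge (mem_top (x := v)))
  obtain ⟨y, hy, z, hz, rfl⟩ := mem_sup.1 hy'
  rw [smul_add, smul_add]
  refine add_mem (mem_sup_left (smul_mem _ _ hx))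
    (mem_sup_right (add_mem (mem_sup_left (smul_mem _ _ hy)) ?_))
  refine mem_comap.1 ((span_le (p := Submodule.comap (δ • LinearMap.id) _)).2 ?_ hz)
  rintro _ ⟨b, i, rfl⟩
  obtain ⟨d, rfl⟩ := hδ b
  refine mem_comap.2 ?_
  rw [LinearMap.smul_apply, LinearMap.id_apply, mul_comm, mul_smul]
  refine smul_mem _ _ (SetLike.le_def.1 ?_ (h.det (hg b) i))
  exact sup_le (le_sup_of_le_right (span_mono (range_subset_iff.2 fun j => ⟨b, j, rfl⟩))) le_sup_left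

/-- **points** -/
theorem pt {x : (GQ → Fin 2 → R) × (β → Fin 2 → R)} (hx : x ∈ Sf R T γ.ρ c D) :
    ∃ κ, p.Rm γ τ *ᵥ κ = 0 ∧ (∀ g, p.u g *ᵥ κ = x.1 g) ∧ ∀ b, m b *ᵥ κ = x.2 b :=
  ((h.bij R).surjOn hx).imp fun κ e =>
    ⟨e.1, congrFun (congrArg Prod.fst e.2), congrFun (congrArg Prod.snd e.2)⟩

theorem pt0 [IsEmpty β] {z : GQ → Fin 2 → R} (hz : z ∈ Zq R T γ.ρ c) :
    ∃ κ, p.Rm γ τ *ᵥ κ = 0 ∧ ∀ g, p.u g *ᵥ κ = z g :=
  (h.pt (x := (z, 0)) ⟨hz, fun b => isEmptyElim b⟩).imp fun κ e => ⟨e.1, e.2.1⟩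

theorem dg [IsEmpty β] (G : Gd ⊤ T γ.ρ) {v : Fin 2 → R} (hv : γ.ρ c *ᵥ v = v) :
    ∃ κ, p.Rm γ τ *ᵥ κ = 0 ∧ ∀ g, p.u g *ᵥ κ = (γ.ρ g - 1) *ᵥ v := by
  have z : ∀ g, γ.ρ g = 1 → (γ.ρ g - 1) *ᵥ v = 0 := fun g e => by rw [e, sub_self, zero_mulVec]
  refine h.pt0 ⟨fun g g' => ?_, G.lc.imp fun W e => ⟨e.1, fun w m => z w (e.2 w trivial m)⟩,
    fun g m => z g (G.unr g trivial m), (sub_mulVec ..).trans (by rw [hv, one_mulVec, sub_self])⟩
  show (γ.ρ (g * g') - 1) *ᵥ v = _ + γ.ρ g *ᵥ _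
  rw [mulVec_mulVec, ← add_mulVec, map_mul]
  refine congrArg (· *ᵥ v) ?_
  noncomm_ring

omit h in
theorem val {κ : Fin p.g → R} (hκ : p.Rm γ τ *ᵥ κ = 0) {s : Type} {A B : Matrix s (Fin p.g) R}
    (e : ∀ i, A i - B i ∈ p.Rl γ τ) : A *ᵥ κ = B *ᵥ κ := funext fun i =>
  sub_eq_zero.1 ((map_sub (ev κ) _ _).symm.trans (ev_ker (A := p.Rm γ τ) hκ (e i)))

theorem vF {κ : Fin p.g → R} (hκ : p.Rm γ τ *ᵥ κ = 0) (x : ι) :
    p.F x *ᵥ κ = p.u (q.φ (inr x)) *ᵥ κ := val hκ (h.hF x)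

theorem vS {κ : Fin p.g → R} (hκ : p.Rm γ τ *ᵥ κ = 0) (x : ι) :
    p.S x *ᵥ κ = p.u (q.t (inr x)) *ᵥ κ := val hκ (h.hS x)

theorem card (M : Type) [AddCommGroup M] [Module R M] :
    Nat.card {y : Fin p.g → M | ac (p.Rm γ τ) y = 0} = Nat.card (Sf M T γ.ρ c D) :=
  Nat.card_congr (h.bij M).equiv

end Lu

/-- a cocycle which vanishes at the tame generator is unramified at all places above `l` -/
theorem unr_all {M : Type} [AddCommGroup M] [Module R M] {k l : ℕ} {a : GQ →* M2 R}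
    {x : GQ → Fin 2 → M} {P Q : Ideal (𝓞 Qb)} {φ t g : GQ} (h2 : (2 : R) ^ k = 0)
    (K : Tm a l P φ t) (ki : ∀ g, Inert P g → a g = 1) (X : x ∈ Zq M T a c) (h0 : x t = 0)
    (ho : Ov l Q) (hg : Inert Q g) : x g = 0 := by
  obtain ⟨u, rfl⟩ := GW.Pl.ov_trans K.ov ho
  have m : Inert P (u⁻¹ * g * u) := by simpa using GW.Pl.inert_conj hg u⁻¹
  obtain ⟨W, hW, e⟩ := X.2.1
  obtain ⟨n, hn⟩ := (P004S.lt l P K.ov).1 t k _ K.ne K.gn m W hW
  have z := hn _ x (fun v => funext fun i => P004F.Ra.two_smul_zero h2 _) (fun g _ m => e g m)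
    fun g g' m _ => by rw [X.1, ki g m, one_ac]
  rw [show g = u * ((u⁻¹ * g * u) * u⁻¹) by group, X.1, X.1, z, h0, smul_zero, zero_add, ki _ m,
    one_ac, ← X.1, mul_inv_cancel, e 1 (one_mem _)]

/-- **one more prime** -/
theorem exl {k : ℕ} (h2 : (2 : R) ^ k = 0) (e : Option ι ≃ ι') {q' : Ps (σ ⊕ ι')}
    {p' : Pk R GQ σ ι'} {m' : β → Matrix (Fin 2) (Fin p'.g) R} (h : Lu γ τ T c D q p m)
    (h' : Lu γ τ T' c D q' p' m') (o : q'.Ok γ τ)
    (hT : ∀ x, x ∈ T' ↔ x = q'.l (inr (e none)) ∨ x ∈ T) (nT : q'.l (inr (e none)) ∉ T)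
    (hφ : ∀ x, q'.φ (x.map id (e ∘ some)) = q.φ x) (ht : ∀ x, q'.t (x.map id (e ∘ some)) = q.t x)
    {g : GQ} (hg : ∀ i, p.u (g⁻¹ * q'.φ (inr (e none))) i ∈ p.Rl γ τ) :
    Nonempty (p.Ext γ τ p' e g) := by
  generalize hL' : p'.Rl γ τ ⊔ span R (range (p'.S (e none))) = L'
  have le : p'.Rl γ τ ≤ L' := hL' ▸ le_sup_left
  have K := o.tm (inr (e none))
  have X := (h.bij _).mapsTo (up_rl le_rfl)
  have X' := (h'.bij _).mapsTo (up_rl le)
  have t0 : ac (p'.u (q'.t (inr (e none)))) (up L') = 0 := funext fun i => by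
    rw [ac_up, ← sub_sub_cancel (p'.S (e none) i) (p'.u _ i)]
    exact (mk_zero L').2 (sub_mem (hL' ▸ mem_sup_right (subset_span ⟨i, rfl⟩)) (le (h'.hS _ i)))
  obtain ⟨y', q1, q2⟩ := (h'.bij _).surjOn (show _ ∈ Sf _ T' γ.ρ c D from ⟨⟨X.1.1, X.1.2.1,
    fun g hg => X.1.2.2.1 g (In_anti (fun p m => (hT p).2 (.inr m)) hg), X.1.2.2.2⟩, X.2⟩)
  obtain ⟨y, q3, q4⟩ := (h.bij _).surjOn (show _ ∈ Sf _ T γ.ρ c D from ⟨⟨X'.1.1, X'.1.2.1,
    fun g ⟨l, hp, Q, ho, hg⟩ => by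
      by_cases s : l = q'.l (inr (e none))
      · exact unr_all h2 K (o.kt _) X'.1 t0 (s ▸ ho) hg
      · exact X'.1.2.2.1 g ⟨l, fun m => ((hT l).1 m).elim s hp, Q, ho, hg⟩, X'.1.2.2.2⟩, X'.2⟩)
  obtain ⟨A, hA⟩ := ex_mat (p.Rl γ τ) y'
  obtain ⟨a1, a3⟩ := Prod.ext_iff.1 q2
  obtain ⟨a4, a6⟩ := Prod.ext_iff.1 q4
  have f0 : ∀ v ∈ p'.Rl γ τ, v ᵥ* A ∈ p.Rl γ τ := fun v hv =>
    (mk_zero _).1 ((hA v).trans (ev_ker q1 hv))
  have f4 : ∀ g i, p'.u g i ᵥ* A - p.u g i ∈ p.Rl γ τ := fun g i => by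
    rw [← mk_zero, map_sub, hA, ← ev_up, sub_eq_zero]
    exact congrFun (congrFun a1 g) i
  have f6 : ∀ b i, m' b i ᵥ* A - m b i ∈ p.Rl γ τ := fun b i => by
    rw [← mk_zero, map_sub, hA, ← ev_up, sub_eq_zero]
    exact congrFun (congrFun a3 b) i
  have f7 : ∀ {v' v g i}, v' - p'.u g i ∈ p'.Rl γ τ → v - p.u g i ∈ p.Rl γ τ →
      v' ᵥ* A - v ∈ p.Rl γ τ := fun {v' v g i} a b => by
    have := sub_mem (add_mem (f0 _ a) (f4 g i)) b
    rwa [sub_vecMul, sub_add_sub_cancel, sub_sub_sub_cancel_right] at this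
  have k0 : ∀ {v}, v ∈ p.Rl γ τ → ev y v = 0 := fun hv => ev_ker q3 hv
  have k1 : ∀ {v v'}, v' ᵥ* A - v ∈ p.Rl γ τ → ev (ac A y) v' = ev y v := fun h => by
    have := k0 h
    rwa [map_sub, ev_vm, sub_eq_zero] at this
  have k2 := (h'.bij _).injOn (x₁ := ac A y) (funext fun i => (ev_vm A y _).symm.trans
    (k0 (f0 _ (subset_span ⟨i, rfl⟩)))) (up_rl le) (Prod.ext
      ((funext fun g => funext fun i => k1 (f4 g i)).trans a4)
      ((funext fun b => funext fun i => k1 (f6 b i)).trans a6))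
  refine ⟨⟨A, fun v => ⟨fun hv => ?_, fun hv => ?_⟩, f4, fun x i => ?_, fun x i => ?_,
    fun x i => ?_, fun i => f7 (h'.hF _ i) ?_⟩⟩
  · rw [hL', ← mk_zero, ← ev_up, ← k2, ← ev_vm, k0 hv]
  · refine (?_ : _ ≤ (p.Rl γ τ).comap (vecMulLinear A)) hv
    refine sup_le f0 (span_le.2 (range_subset_iff.2 fun i => ?_))
    have := f7 (v := 0) (h'.hS (e none) i) (by
      rw [zero_sub]; exact neg_mem (h.unr ⟨_, nT, _, K.ov, K.gn.1⟩ i))
    rwa [sub_zero] at this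
  · have a := h'.hl x i
    have b := h.hl x i
    rw [← hφ, ← ht] at b
    rcases i with i | i
    exacts [f7 a b, f7 a b]
  · exact f7 (h'.hF _ i) (hφ (inr x) ▸ h.hF x i :)
  · exact f7 (h'.hS _ i) (ht (inr x) ▸ h.hS x i :)
  · have := neg_mem (h.tr (g := g) hg i)
    rw [mul_inv_cancel_left] at this
    exact (neg_sub (p.u _ i) (p.u g i)).subst (motive := (· ∈ _)) this

end Vale.Agent.P014T.Pq
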