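import Vale.Agent.P014T.Pq.H2
import Vale.Agent.P014T.Bt.Defs

/-!
# P014T, block PRESQ: the points of an elliptic curve and its quadratic twists
-/

set_option linter.all false

noncomputable section

namespace Vale.Agent.P014T.Pq

open Function Matrix
open Vale.Agent.P022 (Qb GQ)
open Vale.Agent.P022K.G2 (In)
open Vale.Agent.P004M.TE hiding Qb GQ
open Vale.Agent.P004F.Pr (F2 ac)
open P027M.K
open scoped Classical

variable {A B : ℤ} (hD : 4 * (A : ℚ) ^ 3 + 27 * (B : ℚ) ^ 2 ≠ 0) {T : Finset ℕ} {k : GQ}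

theorem z0_eq (S : Finset ℕ) (c : GQ) : Bt.Z0 A B S c = Z0 (fun g => ga g) S c := rfl

/-- `π` is the reduction modulo `2 ^ j` -/
structure Md {R : Type} [CommRing R] (j : ℕ) (π : ℤ_[2] →+* R) : Prop where
  sur : Surjective π
  ker : ∀ x, π x = 0 ↔ 2 ^ j ∣ x

theorem md_pow (j : ℕ) : Md j (PadicInt.toZModPow (p := 2) j) :=
  ⟨ZMod.ringHom_surjective _, fun x => by
    rw [← RingHom.mem_ker, PadicInt.ker_toZModPow, Ideal.mem_span_singleton]; rfl⟩

theorem md_one : Md 1 (PadicInt.toZMod (p := 2)) :=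
  ⟨ZMod.ringHom_surjective _, fun x => by
    rw [← RingHom.mem_ker, PadicInt.ker_toZMod, PadicInt.maximalIdeal_eq_span_p,
      Ideal.mem_span_singleton, pow_one]; rfl⟩

variable {R : Type} [CommRing R] {j : ℕ} {π : ℤ_[2] →+* R}

theorem Md.cp (h : Md j π) (t : Tm (A : ℚ) (B : ℚ)) :
    TM.cp j t = 0 ↔ (fun i => π ((bs hD).repr t i)) = 0 := by
  rw [TM.cp_eq_zero_iff]
  refine ⟨fun ⟨y, e⟩ => funext fun i => (h.ker _).2 ⟨(bs hD).repr y i, by
    rw [e, map_smul, Finsupp.smul_apply, smul_eq_mul]; rfl⟩, fun e => ?_⟩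
  choose r hr using fun i => (h.ker _).1 (congrFun e i)
  exact ⟨(bs hD).equivFun.symm r, (bs hD).equivFun.injective (funext fun i => by
    rw [map_smul, LinearEquiv.apply_symm_apply, Module.Basis.equivFun_apply, hr]; rfl)⟩

theorem Md.cp_eq (h : Md j π) (s t : Tm (A : ℚ) (B : ℚ)) : TM.cp j s = TM.cp j t ↔
    (fun i => π ((bs hD).repr s i)) = fun i => π ((bs hD).repr t i) := by
  rw [← sub_eq_zero, ← map_sub, h.cp hD, ← sub_eq_zero (a := fun i => π ((bs hD).repr s i))]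
  exact Eq.congr_left (funext fun i => by simp)

theorem Md.rp (h : Md j π) (v : Fin 2 → R) :
    (fun i => π ((bs hD).repr ((bs hD).equivFun.symm fun i => invFun π (v i)) i)) = v :=
  funext fun i => by
    rw [← Module.Basis.equivFun_apply, LinearEquiv.apply_symm_apply, invFun_eq (h.sur _)]

/-- **coordinates of the points killed by `2 ^ j`** -/
def io (h : Md j π) : (Fin 2 → R) →+ Pt A B :=
  AddMonoidHom.mk' (fun v => TM.cp j ((bs hD).equivFun.symm fun i => invFun π (v i))) fun v w => by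
    rw [← map_add, h.cp_eq hD, h.rp hD]
    refine funext fun i => ?_
    rw [map_add, Finsupp.add_apply, map_add, congrFun (h.rp hD v) i, congrFun (h.rp hD w) i]
    rfl

variable (h : Md j π)

theorem io_cp (t : Tm (A : ℚ) (B : ℚ)) : io hD h (fun i => π ((bs hD).repr t i)) = TM.cp j t :=
  (h.cp_eq hD _ _).2 (h.rp hD _)

theorem io_inj : Injective (io hD h) := (injective_iff_map_eq_zero _).2 fun v e =>
  (h.rp hD v).symm.trans ((h.cp hD _).1 e)

theorem io_tors (v : Fin 2 → R) : 2 ^ j • io hD h v = 0 := TM.pow_smul_cp _ j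

theorem io_onto {x : Pt A B} (e : 2 ^ j • x = 0) : ∃ v, io hD h v = x :=
  (TM.exists_cp (hdiv hD) e).elim fun t c => ⟨_, (io_cp hD h t).trans c⟩

theorem io_act (g : GQ) (v : Fin 2 → R) :
    io hD h ((mt hD g).map π *ᵥ v) = ga g (io hD h v) := by
  obtain ⟨t, rfl⟩ : ∃ t, (fun i => π ((bs hD).repr t i)) = v := ⟨_, h.rp hD v⟩
  rw [io_cp, ← cp_rho, ← io_cp hD h]
  refine congrArg _ (funext fun i => ?_)
  rw [← congrFun (LinearMap.toMatrix_mulVec_repr (bs hD) (bs hD) (rho _ _ g) t) i]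
  exact (RingHom.map_mulVec π _ _ i).symm

/-- compatibility of the levels -/
theorem io_succ {R' : Type} [CommRing R'] {π' : ℤ_[2] →+* R'} (h' : Md (j + 1) π')
    (v : Fin 2 → ℤ_[2]) : 2 • io hD h' (fun i => π' (v i)) = io hD h fun i => π (v i) := by
  obtain ⟨t, rfl⟩ := (bs hD).equivFun.surjective v
  exact (congrArg (2 • ·) (io_cp hD h' t)).trans ((TM.cp_succ t j).trans (io_cp hD h t).symm)

omit h

/-- a quadratic character which is unramified outside `T` -/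
structure Qc (T : Finset ℕ) (ε : GQ → ℤ) : Prop where
  mul : ∀ g h, ε (g * h) = ε g * ε h
  sq : ∀ g, ε g * ε g = 1
  lc : IsLocallyConstant ε
  unr : ∀ g ∈ In T, ε g = 1

theorem qc_one : Qc T fun _ => 1 :=
  ⟨fun _ _ => rfl, fun _ => rfl, IsLocallyConstant.const _, fun _ _ => rfl⟩

variable {ε : GQ → ℤ}

theorem Qc.one (q : Qc T ε) : ε 1 = 1 := by rw [← q.sq 1, ← q.mul, mul_one]

theorem Qc.pm (q : Qc T ε) (g : GQ) : ε g = 1 ∨ ε g = -1 := Int.eq_one_or_neg_one_of_mul_eq_one (q.sq g)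

theorem tw_app (e : ℤ) (g : GQ) (x : Pt A B) :
    (e • (ga g : Pt A B →+ Pt A B)) x = e • ga g x := rfl

theorem ga_unr (bad : ∀ l : ℕ, l.Prime → l ∉ T → ¬ (l : ℤ) ∣ 2 * (4 * A ^ 3 + 27 * B ^ 2))
    {g : GQ} (m : g ∈ In T) : mt hD g = 1 := by
  obtain ⟨l, hl, P, o, i⟩ := m
  have := Fact.mk o.1
  have e := congrArg Units.val (unr_rep hD (bad l o.1 hl) P o.2.1 o.2.2 g i)
  rw [rep_val] at e
  refine Matrix.ext fun a b => Subtype.ext ((congrFun (congrFun e a) b).trans ?_)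
  simp only [Units.val_one, Matrix.one_apply]
  split_ifs <;> rfl

include hD in
theorem ac_tw (bad : ∀ l : ℕ, l.Prime → l ∉ T → ¬ (l : ℤ) ∣ 2 * (4 * A ^ 3 + 27 * B ^ 2))
    (q : Qc T ε) : Ac (fun g => ε g • (ga g : Pt A B →+ Pt A B)) T where
  one x := by rw [tw_app, q.one, one_smul, ga_one]
  mul g u x := by
    simp only [tw_app, map_zsmul, ga_mul, q.mul, smul_smul, mul_comm]
  lc _ x _ := by
    obtain ⟨O, o1, o2, o3⟩ := eventually_nhds_iff.1 ((ev_ga 1 x).and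
      ((IsLocallyConstant.iff_eventually_eq _).1 q.lc 1))
    obtain ⟨W, hW, le⟩ := P022K.G2.ex_lv o2 o3
    exact ⟨W, hW.opn, fun w m => by
      rw [tw_app, (o1 w (le m)).1, (o1 w (le m)).2, q.one, one_smul, ga_one]⟩
  unr i x e g m := by
    obtain ⟨v, rfl⟩ := io_onto hD (md_pow i) e
    rw [tw_app, q.unr g m, one_smul, ← io_act, ga_unr hD bad m,
      Matrix.map_one _ (map_zero _) (map_one _), Matrix.one_mulVec]

theorem dm_tw (q : Qc T ε) : Dm (fun g => ε g • (ga g : Pt A B →+ Pt A B))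
    (fun g => (mt hD g).map PadicInt.toZMod) (io hD md_one) where
  inj := io_inj hD _
  rng x e := io_onto hD md_one e
  eq g v := by
    rw [tw_app, ← io_act]
    obtain e | e := q.pm g <;> rw [e]
    · rw [one_smul]
    · rw [neg_smul, one_smul, eq_neg_iff_add_eq_zero, ← two_nsmul, two_io]
  dv := hdiv hD

theorem tw_one : (fun g => (1 : ℤ) • (ga g : Pt A B →+ Pt A B)) = fun g => ga g :=
  funext fun _ => AddMonoidHom.ext fun x => one_smul ℤ _

include hD in
theorem ac_ga (bad : ∀ l : ℕ, l.Prime → l ∉ T → ¬ (l : ℤ) ∣ 2 * (4 * A ^ 3 + 27 * B ^ 2)) :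
    Ac (fun g => (ga g : Pt A B →+ Pt A B)) T := tw_one ▸ ac_tw hD bad qc_one

theorem dm_ga : Dm (fun g => (ga g : Pt A B →+ Pt A B))
    (fun g => (mt hD g).map PadicInt.toZMod) (io hD md_one) := tw_one ▸ dm_tw (T := ∅) hD qc_one

/-- **the level `2 ^ j` in coordinates**; `a` is the matrix of the action `ρ` -/
theorem zj_bij (h : Md j π) {ρ : GQ → Pt A B →+ Pt A B} (c : Ac ρ T) {a : GQ → Matrix (Fin 2) (Fin 2) R}
    (e : ∀ g v, io hD h (a g *ᵥ v) = ρ g (io hD h v)) :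
    Set.BijOn (fun (x : GQ → Fin 2 → R) g => io hD h (x g)) (Zq R T a k) (Zj ρ T k j) := by
  refine ⟨fun x ⟨h1, ⟨W, o, w⟩, h3, h4⟩ => ⟨⟨((lc_of o (fun g u m => by
      rw [h1, w u m, P004F.Pr.ac_zero, add_zero])
      fun g u m => by rw [h1, h3 u m, P004F.Pr.ac_zero, add_zero]).comp (io hD h)).lc,
      fun g u => by beta_reduce; rw [h1, map_add, ← e]; rfl, ⟨j, fun g => io_tors hD h _⟩,
      fun g m => by beta_reduce; rw [h3 g m, map_zero], by beta_reduce; rw [h4, map_zero]⟩,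
      funext fun g => io_tors hD h _⟩,
    fun x _ y _ c => funext fun g => io_inj hD h (congrFun c g), fun x ⟨hx, t⟩ => ?_⟩
  choose v hv using fun g => io_onto hD h (congrFun t g)
  replace hv : ∀ g, io hD h (v g) = x g := hv
  have z : ∀ g, x g = 0 → v g = 0 := fun g c => io_inj hD h (by rw [hv, c, map_zero])
  obtain ⟨W, hW, w⟩ := c.lev hx
  exact ⟨v, ⟨fun g u => io_inj hD h (by
    rw [map_add, hv, hv, P004F.Pr.ac_eq, e, hv, hx.2.1]), ⟨W, hW.opn, fun u m => z u (by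
      rw [← one_mul u, w 1 u m, c.z1 hx.2.1])⟩, fun g m => z g (hx.2.2.2.1 g m),
    z k hx.2.2.2.2⟩, funext hv⟩

theorem io_tw (h : Md j π) (ε : GQ → ℤ) (g : GQ) (v : Fin 2 → R) :
    io hD h ((ε g • (mt hD g).map π) *ᵥ v) = (ε g • (ga g : Pt A B →+ Pt A B)) (io hD h v) := by
  rw [Matrix.smul_mulVec, map_zsmul, io_act]; rfl

/-- the base hypotheses from one place with trivial residual action -/
theorem bs_of (h2 : 2 ∈ T) (pr : ∀ l ∈ T, l.Prime) (hk : P022.IsConj k)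
    (aux : ∃ l ∈ T, l ≠ 2 ∧ ∃ Q, P022E.GW.Ov l Q ∧
      ∀ g ∈ P022D.W.dec Q, (mt hD g).map PadicInt.toZMod = 1) :
    Bs T (fun g => (mt hD g).map PadicInt.toZMod) k := ⟨by simp, h2, pr, hk, .inr aux⟩

/-- the corank is at least two -/
theorem cor4 {X : Type} [AddCommGroup X] {ρ : GQ → X →+ X} {a : GQ → Matrix (Fin 2) (Fin 2) F2}
    {ι : (Fin 2 → F2) →+ X} (d : Dm ρ a ι) (h : Ac ρ T) (b : Bs T a k) (i : ℕ) :
    4 ^ i ≤ Nat.card (Zj ρ T k i) := by
  induction i with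
  | zero =>
    have := zj_fin d h b 0
    exact Nat.card_pos
  | succ i ih =>
    rw [pow_succ']
    exact (Nat.mul_le_mul_left 4 ih).trans (low d h b i)

end Vale.Agent.P014T.Pq
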