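import Vale.Agent.P004F.Pr.All

/-!
# P014T, block PRESQ: the count for a projective module over the rational numbers
-/

set_option linter.all false

noncomputable section

namespace Vale.Agent.P014T.Pq

open NumberField Module Cardinal
open Vale.Agent.P022 Vale.Agent.P022K Vale.Agent.P022K.G2
open Vale.Agent.P022K.G2.Cn Vale.Agent.P022K.G2.Sb Vale.Agent.P022K.G2.Hb Vale.Agent.P022K.G2.Cx
open Vale.Agent.P027M.S (Inert)
open Vale.Agent.P022D.W (dec inP_le_dec)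
open Vale.Agent.P022.H443 (inP)
open Vale.Agent.P022E.GW (Ov Fb)
open Vale.Agent.P004F.Pr (F2 z01 Iu iu_mono ex_lev adapt Ou Ad add_cyc one1 inv_ex rq_le2 rq_ker
  b2_bot dv_fp ur_z)
open scoped Pointwise Classical

variable {Γ U : Subgroup GQ} {T T' : Finset ℕ}

/-- tame inertia -/
theorem tame1 {l : ℕ} {P : Ideal (𝓞 Qb)} (i : Γ = ⊤) (h : Ov l P) (hl : l ≠ 2) :
    ∃ τ ∈ Γ ⊓ inP P, ∃ χ : GQ → F2, ∀ (N : Type) [AddCommGroup N] [Module F2 N] (f : GQ → N),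
      Ad (Γ ⊓ inP P) f → ∀ g ∈ Γ ⊓ inP P, f g = χ g • f τ := by
  have lo : Odd l := h.1.odd_of_ne_two hl
  have cyc : ∀ V : Subgroup GQ, Lv ∅ V → ∃ τ ∈ Γ ⊓ inP P, ∀ g ∈ Γ ⊓ inP P, ∃ n : ℕ,
      CH.Loc.WMod l V ((τ ^ n)⁻¹ * g) := fun V hV => by
    have := hV.nrm
    obtain ⟨τ, hτ, e⟩ := CH.Loc.cyc_level V hV.opn h
    exact ⟨τ, ⟨i ▸ trivial, hτ⟩, fun g hg => e g hg.2⟩
  have tor : ∀ (N : Type) [AddCommGroup N] [Module F2 N] (a : N), l • a = 0 → a = 0 :=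
    fun N _ _ a e => by
      rwa [← Nat.cast_smul_eq_nsmul F2, (ZMod.natCast_eq_one_iff_odd).2 lo, one_smul] at e
  by_cases e : ∃ χ : GQ → F2, Ad (Γ ⊓ inP P) χ ∧ ∃ τ ∈ Γ ⊓ inP P, χ τ ≠ 0
  · obtain ⟨χ, ⟨c1, V, hV, c2⟩, τ, hτ, c3⟩ := e
    refine ⟨τ, hτ, χ, fun N _ _ f ⟨f1, W, hW, f2⟩ g hg => ?_⟩
    obtain ⟨s, hs, e⟩ := cyc _ (hV.inf hW)
    have k : ∀ g ∈ Γ ⊓ inP P, ∃ n : F2, f g = n • f s ∧ χ g = n * χ s := fun g hg => by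
      obtain ⟨n, hn⟩ := e g hg
      exact ⟨n, by rw [add_cyc (tor N) f1 (V := V ⊓ W) (fun w a m => f2 w a m.2) hs hg hn,
        Nat.cast_smul_eq_nsmul], by
          rw [add_cyc (tor F2) c1 (V := V ⊓ W) (fun w a m => c2 w a m.1) hs hg hn, nsmul_eq_mul]⟩
    obtain ⟨a, a1, a2⟩ := k τ hτ
    obtain ⟨n, n1, n2⟩ := k g hg
    rw [a2] at c3
    rw [n1, n2, a1, z01 _ (left_ne_zero_of_mul c3), z01 _ (right_ne_zero_of_mul c3), mul_one,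
      one_smul]
  · push Not at e
    refine ⟨1, one_mem _, 0, fun N _ _ f ⟨f1, W, hW, f2⟩ g hg => ?_⟩
    rw [Pi.zero_apply, zero_smul]
    exact (Module.forall_dual_apply_eq_zero_iff F2 _).1 fun φ => e (fun x => φ (f x))
      ⟨fun x hx y hy => by beta_reduce; rw [f1 x hx y hy, map_add], W, hW, fun w a m => by
        beta_reduce; rw [f2 w a m, map_zero]⟩ g hg

variable {N : Type} [AddCommGroup N] [Module F2 N] {ρ : GQ → End F2 N} {ι : Type} {x : ι → Plc}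

/-- the values on generators of tame inertia -/
theorem ex_res (o : IsOpen (Γ : Set GQ)) (i : Γ = ⊤) (h2 : 2 ∈ T) (r : Rp (Iu Γ T) Γ ρ)
    (hx : Reps Γ (Ab T') x) : ∃ s : (GQ → N) →ₗ[F2] ι → N, ∀ c ∈ C1 F2 N (Iu Γ T') Γ,
      d1 ρ c ∈ C2 F2 N (Iu Γ T) Γ → (∀ j, s c j ∈ if Ou T (x j) then H0 (Dv Γ x j) ρ fun _ => 1
        else ⊥) ∧ (s c = 0 → c ∈ C1 F2 N (Iu Γ T) Γ) := by
  have n : Γ.Normal := i ▸ inferInstance
  have : ∀ j, ∃ τ : GQ, ∃ χ : GQ → F2, ∀ l ∉ T, ∀ P, Ov l P → x j = fp P → τ ∈ Γ ⊓ inP P ∧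
      ∀ f : GQ → N, Ad (Γ ⊓ inP P) f → ∀ g ∈ Γ ⊓ inP P, f g = χ g • f τ := fun j => by
    by_cases e : Ou T (x j)
    · obtain ⟨l, hl, P, ov, e⟩ := e
      obtain ⟨τ, t, χ, k⟩ := tame1 i ov fun c => hl (c ▸ h2)
      refine ⟨τ, χ, fun l' _ P' _ e' => ?_⟩
      obtain rfl : P = P' := Sum.inl.inj (e.symm.trans e')
      exact ⟨t, k N⟩
    · exact ⟨1, 0, fun l hl P ov c => (e ⟨l, hl, P, ov, c⟩).elim⟩
  choose τ χ k using this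
  refine ⟨.pi fun j => if Ou T (x j) then .proj (τ j) - .proj 1 else 0,
    fun c ⟨V, hV, v⟩ ⟨W, hW, w⟩ => ?_⟩
  have one := one_mem Γ
  have a1 : ∀ g ∈ Γ, ∀ u ∈ Iu Γ T, c (g * u) = c g + ρ g (c u - c 1) := fun g hg u m => by
    have := (w g hg 1 one u m.1 (hW.sub m)).2
    simp only [d1_apply, one_mul, mul_one] at this
    rw [map_sub]
    linear_combination (norm := abel1) -this
  have a2 : ∀ g ∈ Γ, ∀ u ∈ Iu Γ T, c (g * u * g⁻¹) - c 1 = ρ g (c u - c 1) := fun g hg u m => by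
    have m' : g * u * g⁻¹ ∈ Iu Γ T := ⟨n.conj_mem _ m.1 g, in_conj m.2 g⟩
    have := (w 1 one g hg _ m'.1 (hW.sub m')).1
    simp only [d1_apply, one_mul, rp_in r m' m'.1, r.one, End.one_apply, inv_mul_cancel_right,
      a1 g hg u m] at this
    linear_combination (norm := abel1) this
  have ad : ∀ l ∉ T, ∀ P, Ov l P → Ad (Γ ⊓ inP P) fun g => c g - c 1 := fun l hl P ov =>
    ⟨fun g hg u hu => by
      beta_reduce
      rw [a1 g hg.1 u ⟨hu.1, l, hl, P, ov, hu.2⟩, rp_in r ⟨hg.1, l, hl, P, ov, hg.2⟩ hg.1]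
      simp only [End.one_apply]; abel,
    V, hV.mono (Set.empty_subset _), fun u hu m => by
      beta_reduce
      rw [← one_mul u, v 1 one u hu.1 m, sub_self]⟩
  refine ⟨fun j => ?_, fun s0 => ex_lev n o hV.opn v fun g hg u m => ?_⟩
  · rw [LinearMap.pi_apply]
    split_ifs with e
    · obtain ⟨l, hl, P, ov, e⟩ := e
      obtain ⟨t, k1⟩ := k j l hl P ov e
      intro g hg
      have m : g * τ j * g⁻¹ ∈ Γ ⊓ inP P := ⟨n.conj_mem _ t.1 g, by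
        have := GW.Pl.inert_conj t.2 g
        rwa [show g • P = P from Sum.inl.inj (by
          have : g • x j = x j := hg.2
          rwa [e] at this)] at this⟩
      have e1 := (a2 g hg.1 _ ⟨t.1, l, hl, P, ov, t.2⟩).symm.trans (k1 _ (ad l hl P ov) _ m)
      change ρ g (c (τ j) - c 1) = (1 : F2) • (c (τ j) - c 1)
      by_cases e0 : χ j (g * τ j * g⁻¹) = 0
      · rw [e0, zero_smul] at e1
        rw [e1, ← r.inv' hg.1 (c (τ j) - c 1), e1, map_zero, smul_zero]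
      · rw [e1, z01 _ e0]
    · rfl
  · obtain ⟨m1, l, hl, P, ov, m2⟩ := id m
    rw [a1 g hg u m, _root_.add_eq_left]
    by_cases e : l ∈ T'
    · obtain ⟨j, a, ha, e⟩ := hx.ex _ (mem_ab_fp.2 ⟨l, e, ov⟩)
      have e1 : x j = fp (a⁻¹ • P) := by rw [← smul_fp, e, inv_smul_smul]
      have o1 := GW.ov_smul ov a⁻¹
      obtain ⟨-, k1⟩ := k j l hl _ o1 e1
      have m3 : a⁻¹ * u * a⁻¹⁻¹ ∈ Γ ⊓ inP (a⁻¹ • P) := ⟨n.conj_mem _ m1 _, GW.Pl.inert_conj m2 _⟩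
      have e2 : c (τ j) - c 1 = 0 := by
        have := congrFun s0 j
        rwa [LinearMap.pi_apply, if_pos ⟨l, hl, _, o1, e1⟩] at this
      have e3 := (a2 _ (inv_mem ha) u m).symm.trans (k1 _ (ad l hl _ o1) _ m3)
      rw [e2, smul_zero] at e3
      rw [← r.inv ha (c u - c 1), e3, map_zero, map_zero]
    · rw [← one_mul u, v 1 one u m1 (hV.sub ⟨m1, l, e, P, ov, m2⟩), sub_self, map_zero]

/-- enlarging the set of primes -/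
theorem enl1 [Fintype ι] (o : IsOpen (Γ : Set GQ)) (i : Γ = ⊤) (h2 : 2 ∈ T) (le : T ⊆ T')
    (r : Rp (Iu Γ T) Γ ρ) (hx : Reps Γ (Ab T') x) :
    rq (Z2 (Iu Γ T) Γ ρ ⊓ B2 (Iu Γ T') Γ ρ) (B2 (Iu Γ T) Γ ρ) + rk (Z1 (Iu Γ T') Γ ρ) ≤
      ∑ j, rk (if Ou T (x j) then H0 (Dv Γ x j) ρ fun _ => 1 else ⊥) + rk (Z1 (Iu Γ T) Γ ρ) := by
  obtain ⟨s, hs⟩ := ex_res o i h2 r hx
  have zz : ∀ c ∈ Z1 (Iu Γ T') Γ ρ, d1 ρ c ∈ C2 F2 N (Iu Γ T) Γ := fun c hc =>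
    ⟨⊤, Lv.top _, fun g hg h hh w hw _ => by
      rw [d1_z1 hc (mul_mem hg hw) hh, d1_z1 hc hg (mul_mem hh hw), d1_z1 hc hg hh]
      exact ⟨rfl, rfl⟩⟩
  let Y := C1 F2 N (Iu Γ T') Γ ⊓ (C2 F2 N (Iu Γ T) Γ).comap (d1 ρ)
  have zy : Z1 (Iu Γ T') Γ ρ ≤ Y := fun c hc => ⟨Z1.c1 hc, zz c hc⟩
  have e1 : rq (Z2 (Iu Γ T) Γ ρ ⊓ B2 (Iu Γ T') Γ ρ) (B2 (Iu Γ T) Γ ρ) ≤
      rq (Y.map s) ((Z1 (Iu Γ T') Γ ρ).map s) := by
    refine le_trans (rq_sub ?_) (rq_le2 (d1 ρ) s Y ?_)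
    · rintro z ⟨hz, c, hc, h⟩
      exact ⟨d1 ρ c, ⟨c, ⟨hc, hz.2.imp fun W hW => ⟨hW.1, fun g hg j hj w hw m => by
        rw [← h _ (mul_mem hg hw) j hj, ← h g hg _ (mul_mem hj hw), ← h g hg j hj]
        exact hW.2 g hg j hj w hw m⟩⟩, rfl⟩, b2_of_zero
          fun g hg j hj => sub_eq_zero.2 (h g hg j hj)⟩
    · rintro c hc ⟨c', h', e⟩
      have m := sub_mem hc (zy h')
      exact ⟨c - c', (hs _ m.1 m.2).2 (by rw [map_sub, e, sub_self]), fun g hg j hj => by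
        rw [map_sub, Pi.sub_apply, Pi.sub_apply, d1_z1 h' hg hj, sub_zero]⟩
  have e2 := rq_add (Y.map s) ((Z1 (Iu Γ T') Γ ρ).map s)
  rw [inf_eq_right.2 (Submodule.map_mono zy)] at e2
  rw [← rk_map s (Z1 (Iu Γ T') Γ ρ), ← add_assoc, ← rk_pi2]
  refine add_le_add (((add_le_add_left e1 _).trans_eq e2).trans (Submodule.rank_mono ?_))
    (Submodule.rank_mono fun c ⟨hc, h0⟩ => ⟨hc.1, hc.2.1, ((hs c (Z1.c1 hc) (zz c hc)).2 h0).imp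
      fun W hW => ⟨hW.1, fun w hw m => ?_⟩⟩)
  · rintro _ ⟨c, hc, rfl⟩ j _
    exact (hs c hc.1 hc.2).1 j
  · rw [← one_mul w, hW.2 1 (one_mem _) w hw m, Z1.one hc r.one]

/-- the weight of a place -/
def wt (y : Plc) : ℕ := if y ∈ Ab {0} then 0 else if y ∈ Ab {2} then 2 else 1

theorem wt_ip (w : InfinitePlace Qb) : wt (ip w) = 0 := by
  rw [wt, if_pos (mem_ab_ip.2 (Set.mem_singleton 0))]

theorem wt_fp {l : ℕ} {P : Ideal (𝓞 Qb)} (h : Ov l P) : wt (fp P) = if l = 2 then 2 else 1 := by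
  rw [wt, if_neg fun m => by
    obtain ⟨_, rfl, a⟩ := mem_ab_fp.1 m
    exact Nat.not_prime_zero a.1]
  refine if_congr ⟨fun m => ?_, fun m => mem_ab_fp.2 ⟨2, rfl, m ▸ h⟩⟩ rfl rfl
  obtain ⟨_, rfl, a⟩ := mem_ab_fp.1 m
  exact GW.Pl.ov_uniq h a

section

variable {κ : Type} [Fintype κ] {y : κ → Plc} [Fintype ι] {e : κ → ι}

theorem loc_z {S : Set ℕ} (d : Pd (Iu ⊤ T) ⊤ U ρ (om 2 F2)) {v : Plc} (ov : v ∈ Ab S) :
    rk (Z1 ∅ (⊤ ⊓ St v) ρ) = rk (Hm (⊤ ⊓ St v) ρ (om 2 F2)) + wt v * Module.rank F2 N := by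
  have fN := d.fin
  obtain ⟨l, -, Q, b, rfl⟩ | ⟨-, w, rfl⟩ := ov
  · rw [st_fp, lpc 2 F2 N ⊤ U l _ ρ isOpen_univ (d.le.isOpen isOpen_univ) (le_gz_two _) b
      (pd_res d inf_le_left), wt_fp b, Subgroup.relIndex_top_left]
    split_ifs <;> norm_num
  · have := inf 2 F2 N ⊤ w ρ d.fin (pd_res d inf_le_left).rp
    rw [Subgroup.relIndex_top_left, Nat.cast_one, one_mul] at this
    rw [wt_ip, Nat.cast_zero, zero_mul, add_zero]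
    exact le_antisymm (can (Module.rank_lt_aleph0 F2 N) this.le)
      (can (Module.rank_lt_aleph0 F2 N) this.ge)

theorem cnt_sum (d : Pd (Iu Γ T) Γ U ρ (om 2 F2)) (ov : ∀ i, ¬ Ou T (y i))
    (ie : Function.Injective e) (xe : ∀ a, x (e a) = y a) :
    ∑ j, rk (if x j ∈ Ab T ∧ j ∉ Set.range e then H0 (Dv Γ x j) ρ fun _ => 1 else ⊥) +
      ∑ j, rk (if Ou T (x j) then H0 (Dv Γ x j) ρ fun _ => 1 else ⊥) +
      ∑ a, rk (Hm (Dv Γ x (e a)) ρ (om 2 F2)) ≤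
      ∑ j, rk (Hm (Dv Γ x j) ρ (om 2 F2)) := by
  have := d.fin
  have u2 : ∀ j, rk (H0 (Dv Γ x j) ρ fun _ => 1) = rk (Hm (Dv Γ x j) ρ (om 2 F2)) := fun j => by
    have := pd_res d (Dv_le Γ x j)
    rw [← om_two']
    exact prd GQ F2 N ∅ _ U ρ _ this.fin this.rp this.prj this.nz this.tri this.mu this.om
  have u3 : ∀ (q : Prop) [Decidable q] j, rk (if q then H0 (Dv Γ x j) ρ fun _ => 1 else ⊥) =
      if q then rk (Hm (Dv Γ x j) ρ (om 2 F2)) else 0 := fun q _ j => by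
    split_ifs
    exacts [u2 j, rank_bot _ _]
  simp only [u3]
  generalize hf : (fun j => rk (Hm (Dv Γ x j) ρ (om 2 F2))) = f
  simp only [fun j => congrFun hf j]
  rw [← Finset.sum_image (f := f) ie.injOn, ← Finset.univ_inter (Finset.univ.image e),
    ← Finset.sum_ite_mem, ← Finset.sum_add_distrib, ← Finset.sum_add_distrib]
  refine Finset.sum_le_sum fun j _ => ?_
  have v1 : Ou T (x j) → x j ∉ Ab T := fun ⟨l, hl, Q, a, b⟩ m => by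
    obtain ⟨l', hl', a'⟩ := mem_ab_fp.1 (b ▸ m)
    exact hl (GW.Pl.ov_uniq a a' ▸ hl')
  by_cases v2 : j ∈ Finset.univ.image e
  · obtain ⟨a, -, rfl⟩ := Finset.mem_image.1 v2
    rw [if_neg fun h => h.2 ⟨a, rfl⟩, if_neg fun h => ov a (xe a ▸ h), if_pos v2]
    simp
  rw [if_neg v2]
  by_cases v4 : Ou T (x j)
  · rw [if_neg fun h => v1 v4 h.1, if_pos v4]
    simp
  · rw [if_neg v4]
    split_ifs <;> simp

/-- the invariants at the places without condition -/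
theorem cnt_rel (o : IsOpen (Γ : Set GQ)) (pr : ∀ l ∈ T, l.Prime)
    (cx : ∀ j w, x j = ip w → j ∈ Set.range e)
    (d : Pd (Iu Γ T) Γ U ρ (om 2 F2)) (le : U ≤ Γ) (tt : T ⊆ T') (h0 : 0 ∈ T')
    (hx : Reps Γ (Ab T') x) (xe : ∀ a, x (e a) = y a)
    (rel : Hm Γ ρ (om 2 F2) = ⊥ ∨ ∃ l ∈ T, l ≠ 2 ∧ ∃ Q, Ov l Q ∧ dec Q ≤ U ∧
      ∀ i, ∀ g ∈ Γ, fp Q ≠ g • y i) :
    sh (Iu Γ T) Γ (fun i => Γ ⊓ St (y i)) ρ + rk (Hm Γ ρ (om 2 F2)) ≤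
      ∑ j, rk (if x j ∈ Ab T ∧ j ∉ Set.range e then H0 (Dv Γ x j) ρ fun _ => 1 else ⊥) +
        rq (Sh (Iu Γ T) Γ (Dv Γ x) ρ) (B2 (Iu Γ T) Γ ρ) := by
  have fN := d.fin
  have oU := d.le.isOpen o
  have du : ∀ Q, Γ ⊓ dec Q ⊓ U = U ⊓ dec Q := fun Q => by
    rw [inf_right_comm, inf_eq_right.2 le]
  have ex : ∀ j, ∃ f : (GQ → GQ → N) →ₗ[F2] N, ∀ l Q, Ov l Q → x j = fp Q →
      (∀ z ∈ Z2 ∅ (Dv Γ x j) ρ, f z ∈ H0 (Dv Γ x j) ρ fun _ => 1) ∧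
      (∀ z ∈ Z2 ∅ (Dv Γ x j) ρ, f z = 0 → z ∈ B2 ∅ (Dv Γ x j) ρ) ∧ ∀ z (φ : Dual F2 N),
        (fun g j => φ (z g j)) ∈ B2 ∅ (Dv Γ x j ⊓ U) (tr GQ F2) → φ (f z) = 0 := fun j => by
    obtain ⟨l, -, Q, a, c⟩ | ⟨-, w, c⟩ := Rps.self hx j
    · refine (inv_ex (pd_res d (Dv_le Γ x j)) ?_).imp fun f hf _ _ _ _ => hf
      rw [dv_fp c, du, ← ch_om_two]
      exact (dimt2 F2 U l Q _ oU a (rp_om F2 U)).1
    · exact ⟨0, fun _ _ _ c' => absurd (c'.symm.trans c) Sum.inl_ne_inr⟩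
  choose F hF using ex
  let Rel : ι → Prop := fun j => x j ∈ Ab T ∧ j ∉ Set.range e
  have hR := fun j (h : Rel j) => (show ∃ l Q, Ov l Q ∧ x j = fp Q from h.1.elim
    (fun ⟨l, _, Q, a, c⟩ => ⟨l, Q, a, c⟩) fun m => absurd (pr 0 m.1) Nat.not_prime_zero).elim
      fun l h => h.elim fun Q h => hF j l Q h.1 h.2
  have dv : ∀ a, Dv Γ x (e a) = Γ ⊓ St (y a) := fun a => by rw [Dv, xe]
  let Φ : (GQ → GQ → N) →ₗ[F2] ι → N := .pi fun j => if Rel j then F j else 0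
  have hΦ : ∀ z j, Rel j → Φ z j = F j z := fun z j h => by
    simp only [Φ, LinearMap.pi_apply, if_pos h]
  rw [sh]
  set S := Sh (Iu Γ T) Γ (fun i => Γ ⊓ St (y i)) ρ with hS
  have zr : ∀ z ∈ S, ∀ j, z ∈ Z2 ∅ (Dv Γ x j) ρ := fun z hz j =>
    Z2.mono hz.1 (Set.empty_subset _) (Dv_le Γ x j)
  have tv : ∀ z ∈ S, ∀ j, (Rel j → Φ z j = 0) → z ∈ B2 ∅ (Dv Γ x j) ρ := fun z hz j h => by
    by_cases m' : j ∈ Set.range e
    · obtain ⟨b, rfl⟩ := m'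
      rw [dv]
      exact (Submodule.mem_iInf _).1 hz.2 b
    obtain ⟨l, -, Q, a, c⟩ | ⟨-, w, c⟩ := Rps.self hx j
    · by_cases m : l ∈ T
      · have : Rel j := ⟨c ▸ mem_ab_fp.2 ⟨l, m, a⟩, m'⟩
        exact (hR j this).2.1 z (zr z hz j) ((hΦ z j this).symm.trans (h this))
      · refine (hF j l Q a c).2.1 z (zr z hz j) ((Module.forall_dual_apply_eq_zero_iff F2 _).1
          fun φ => (hF j l Q a c).2.2 z φ ?_)
        rw [dv_fp c, du]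
        exact ur_z hz.1 φ oU le (fun g hg n => by rw [d.tri g (le hg) hg]; rfl) m a
    · exact absurd (cx j w c) m'
  have k1 := rq_ker Φ S (B := B2 (Iu Γ T) Γ ρ) fun z hz => funext fun j => by
    simp only [Φ, LinearMap.pi_apply]
    split_ifs with hj
    · exact (Module.forall_dual_apply_eq_zero_iff F2 _).1 fun φ => (hR j hj).2.2 z φ (B2.amap (B2.mono hz
        (Set.empty_subset _) (inf_le_left.trans (Dv_le Γ x j))) φ.toAddMonoidHom fun g hg n => by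
          rw [d.tri g hg.1.1 hg.2]; rfl)
    · rfl
  rw [← k1, add_right_comm]
  refine add_le_add ?_ (rq_mono fun z ⟨hz, h0⟩ => ⟨hz.1,
    (Submodule.mem_iInf _).2 fun j => tv z hz j fun _ => congrFun h0 j⟩)
  have y1 : S.map Φ ≤ .pi Set.univ fun j => if Rel j then H0 (Dv Γ x j) ρ fun _ => 1 else ⊥ := by
    rintro _ ⟨z, hz, rfl⟩ j _
    simp only [Φ, LinearMap.pi_apply]
    split_ifs with hj
    exacts [(hR j hj).1 z (zr z hz j), rfl]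
  rw [← rk_pi2]
  obtain c | ⟨l, hl, l2, Q₀, a, qu, nq⟩ := rel
  · rw [c, rk, rk, rank_bot, add_zero]
    exact Submodule.rank_mono y1
  obtain ⟨j, b, hb, c⟩ := hx.ex _ (mem_ab_fp.2 ⟨l, tt hl, a⟩)
  have c1 : x j = fp (b⁻¹ • Q₀) := by rw [← smul_fp, c, inv_smul_smul]
  have a1 := GW.ov_smul a b⁻¹
  have q1 : dec (b⁻¹ • Q₀) ≤ U := fun u hu => by
    rw [← st_fp, ← c1] at hu
    have := ((st_cj (Γ := ⊤) (x j) (g := b) trivial u).1 ⟨trivial, hu⟩).2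
    rw [← c] at this
    simpa [mul_assoc] using d.nz.conj' hb (qu ((st_fp Q₀).le this))
  have rj : Rel j := ⟨c1 ▸ mem_ab_fp.2 ⟨l, hl, a1⟩, fun ⟨u, hu⟩ => nq u b hb (by
    rw [← hu, xe] at c; exact c)⟩
  generalize b⁻¹ • Q₀ = Q at c1 a1 q1
  obtain ⟨C, hC⟩ := (Hm Γ ρ (om 2 F2)).dualCoannihilator.exists_isCompl
  have r1 : rk (Hm Γ ρ (om 2 F2)) = rk (C.map (.single F2 (fun _ : ι => N) j)) := by
    rw [rk, rk, rank_map_eq (f := .single F2 (fun _ : ι => N) j)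
      (Pi.single_injective (M := fun _ : ι => N) j), ← finrank_eq_rank, ← finrank_eq_rank]
    have u1 := Subspace.finrank_add_finrank_dualCoannihilator_eq (Hm Γ ρ (om 2 F2))
    have u2 := Submodule.finrank_add_eq_of_isCompl hC
    congr 1
    omega
  rw [r1, rk, rk, ← Submodule.rank_sup_add_rank_inf_eq, (Submodule.eq_bot_iff (_ ⊓ _)).2, rank_bot,
    add_zero]
  · refine Submodule.rank_mono (sup_le y1 ?_)
    rintro _ ⟨m, -, rfl⟩ j' _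
    by_cases u : j' = j
    · subst u
      beta_reduce
      rw [if_pos rj, dv_fp c1]
      exact fun g hg => by rw [d.tri g hg.1 (q1 hg.2), one_smul]; rfl
    · rw [LinearMap.single_apply, Pi.single_eq_of_ne u]
      exact zero_mem _
  rintro _ ⟨⟨z, hz, rfl⟩, m, hm, em⟩
  rw [← em, show m = 0 from (Submodule.disjoint_def.1 hC.disjoint) m ?_ hm, map_zero]
  have e1 : m = F j z := by
    rw [← hΦ z j rj, ← em, LinearMap.single_apply, Pi.single_eq_same]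
  refine (Submodule.mem_dualCoannihilator _).2 fun φ hφ => e1 ▸ (hR j rj).2.2 z φ ?_
  have t : ∀ g ∈ Γ, ∀ n, φ (ρ g n) = φ n := fun g hg n => by rw [hφ g hg, om_two, one_mul]
  have zφ := Z2.amap (ρ' := tp 2) (Z2.mono hz.1 (Set.empty_subset _) le_rfl) φ.toAddMonoidHom t
  rw [dv_fp c1]
  refine B2.mono (one1 o a1 l2 (q1.trans le) zφ fun y' hy ny => ?_) subset_rfl inf_le_left
  by_cases yT : y' ∈ Ab T'
  · obtain ⟨j', u, hu, rfl⟩ := hx.ex y' yT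
    refine loc2 (rp_tr ∅ Γ) zφ hu (B2.amap (tv z hz j' fun _ => ?_) φ.toAddMonoidHom
      fun g hg => t g hg.1)
    rw [← em, LinearMap.single_apply, Pi.single_eq_of_ne fun w => ny u hu (by rw [w, c1])]
  · obtain ⟨l', -, Q', o', rfl⟩ | ⟨-, w, rfl⟩ := hy
    · rw [st_fp]
      exact ur_z hz.1 φ o le_rfl t (fun a => yT (mem_ab_fp.2 ⟨l', tt a, o'⟩)) o'
    · exact absurd (mem_ab_ip.2 h0) yT

end

/-- **the count** -/
theorem core {κ : Type} [Fintype κ] {y : κ → Plc} (h2 : 2 ∈ T) (pr : ∀ l ∈ T, l.Prime)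
    (d : Pd (Iu ⊤ T) ⊤ U ρ (om 2 F2)) (ov : ∀ i, y i ∈ Ab (insert 0 T))
    (un : ∀ i j, ∀ g : GQ, y j = g • y i → i = j) (fr : ∃ i w, y i = ip w)
    (rel : Hm ⊤ ρ (om 2 F2) = ⊥ ∨ ∃ l ∈ T, l ≠ 2 ∧ ∃ Q, Ov l Q ∧ dec Q ≤ U ∧
      ∀ i, ∀ g : GQ, fp Q ≠ g • y i) :
    sh (Iu ⊤ T) ⊤ (fun i => ⊤ ⊓ St (y i)) ρ + ∑ i, rk (Z1 ∅ (⊤ ⊓ St (y i)) ρ) +
      Module.rank F2 N ≤ rk (Z1 (Iu ⊤ T) ⊤ ρ) + (∑ i, wt (y i) : ℕ) * Module.rank F2 N := by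
  have fN := d.fin
  have o : IsOpen ((⊤ : Subgroup GQ) : Set GQ) := isOpen_univ
  have oU := d.le.isOpen o
  obtain ⟨T', tt, -, L, -⟩ := lg 2 ⊤ U U T le_top (le_gz_two _) d.nz oU oU
    fun l hl => .inr (pr l hl)
  have eI : Iu ⊤ T' = In T' := Set.ext fun g => ⟨fun h => h.2, fun h => ⟨trivial, h⟩⟩
  have sI : In T' ⊆ Iu ⊤ T := eI ▸ iu_mono tt
  obtain ⟨ι, _, x₀, hx₀⟩ := plc ⊤ T' o
  obtain ⟨x, e, hx, ie, xe⟩ := adapt hx₀ y (fun a => Plc.ab_mono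
    (Set.insert_subset L.h0 (Finset.coe_subset.2 tt)) (ov a)) fun a b g _ c => un a b g c
  have d' : Pd (In T') ⊤ U ρ (om 2 F2) := ⟨d.fin, d.rp.mono sI le_rfl, d.prj, d.nz,
    d.le.mono sI le_rfl, d.tri, d.mu, d.om⟩
  obtain ⟨s0, fz, -⟩ := chi02 F2 N ⊤ U T' ι x ρ le_top L.uz L.bg L.h0 L.hp L.lv hx d'
  have g := gpc 2 F2 N ⊤ U T' ι x ρ le_top L.uz L.bg L.h0 L.hp L.lv hx d'
  have en := enl1 o rfl h2 tt d.rp hx
  rw [eI] at en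
  have k2 : rq (Sh (Iu ⊤ T) ⊤ (Dv ⊤ x) ρ) (B2 (Iu ⊤ T) ⊤ ρ) ≤ _ := rq_mono
    (Z' := Z2 (Iu ⊤ T) ⊤ ρ ⊓ B2 (In T') ⊤ ρ) fun z hz =>
      ⟨hz.1, rq_eq_zero.1 s0 ⟨Z2.mono hz.1 sI le_rfl, hz.2⟩⟩
  have k3 := (cnt_rel o pr (fun j w c => by
      obtain ⟨i, w', c'⟩ := fr
      obtain ⟨a, ha⟩ := Plc.ab_trans (l := 0) (y := ip w') (y' := ip w) (mem_ab_ip.2 rfl)
        (mem_ab_ip.2 rfl)
      exact ⟨i, hx.un _ _ a trivial (by rw [c, xe, c', ha])⟩) d le_top tt L.h0 hx xe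
    (rel.imp id fun ⟨l, a, b, Q, c, d, e⟩ => ⟨l, a, b, Q, c, d, fun i g _ => e i g⟩)).trans
    (add_le_add_right k2 _)
  have k4 : ∑ a, rk (Z1 ∅ (⊤ ⊓ St (y a)) ρ) = ∑ a, rk (Hm (Dv ⊤ x (e a)) ρ (om 2 F2)) +
      (∑ i, wt (y i) : ℕ) * Module.rank F2 N := by
    rw [Nat.cast_sum, Finset.sum_mul, ← Finset.sum_add_distrib]
    exact Finset.sum_congr rfl fun a _ => by rw [loc_z d (ov a), Dv, xe]
  have k5 := cnt_sum d (fun i ⟨l, hl, Q, a, c⟩ => by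
    obtain ⟨l', m, a'⟩ := mem_ab_fp.1 (c ▸ ov i)
    obtain rfl := GW.Pl.ov_uniq a a'
    exact m.elim (fun m => Nat.not_prime_zero (m ▸ a.1)) hl) ie xe
  refine can (add_lt_aleph0 fz (fin_hm (A := ⊤) (ρ := ρ) (ω := om 2 F2) fN)) ?_
  generalize sh (Iu ⊤ T) ⊤ (fun i => ⊤ ⊓ St (y i)) ρ = u, rk (Hm ⊤ ρ (om 2 F2)) = h,
    ∑ j, rk (if x j ∈ Ab T ∧ j ∉ Set.range e then H0 (Dv ⊤ x j) ρ fun _ => 1 else ⊥) = a,
    ∑ j, rk (if Ou T (x j) then H0 (Dv ⊤ x j) ρ fun _ => 1 else ⊥) = b,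
    ∑ a, rk (Hm (Dv ⊤ x (e a)) ρ (om 2 F2)) = c, Module.rank F2 N = r,
    rq (Z2 (Iu ⊤ T) ⊤ ρ ⊓ B2 (In T') ⊤ ρ) (B2 (Iu ⊤ T) ⊤ ρ) = q, rk (Z1 (In T') ⊤ ρ) = z',
    rk (Z1 (Iu ⊤ T) ⊤ ρ) = z, ∑ a, rk (Z1 ∅ (⊤ ⊓ St (y a)) ρ) = t at *
  generalize ((∑ i, wt (y i) : ℕ) : Cardinal) * r = m at *
  calc _ = u + h + z' + t + r := by ring
    _ ≤ a + q + z' + (c + m) + r := by rw [k4]; gcongr
    _ = a + (q + z') + (c + m) + r := by ring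
    _ ≤ a + (b + z) + (c + m) + r := by gcongr
    _ = a + b + c + (r + (z + m)) := by ring
    _ ≤ _ := add_le_add_left k5 _
    _ = _ := by rw [g]; ring

/-- finiteness, with a bound when primes are added -/
theorem fin_z (o : IsOpen (Γ : Set GQ)) (pr : ∀ l ∈ T, l.Prime)
    (f : Module.Finite F2 N) (r : Rp (Iu Γ T) Γ ρ) : rk (Z1 (Iu Γ T) Γ ρ) < ℵ₀ := by
  obtain ⟨W, hW, w⟩ := r.lv
  have oU : IsOpen ((Γ ⊓ W : Subgroup GQ) : Set GQ) := o.inter hW.opn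
  obtain ⟨T', tt, -, L, -⟩ := lg 2 Γ (Γ ⊓ W) _ T inf_le_left (le_gz_two _)
    (fun g hg u hu => ⟨Γ.mul_mem (Γ.mul_mem hg hu.1) (Γ.inv_mem hg), hW.nrm.conj_mem u hu.2 g⟩)
    oU oU fun l hl => .inr (pr l hl)
  have sI : In T' ⊆ Iu Γ T := fun g h => iu_mono tt ⟨(le_in L.lv h).1, h⟩
  exact (Submodule.rank_mono fun c hc => Z1.mono hc sI).trans_lt
    (fin_all chi02 L inf_le_left f (r.mono sI le_rfl) fun u hu => w u hu.1 hu.2).1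

theorem bnd_z (o : IsOpen (Γ : Set GQ)) (i : Γ = ⊤) (h2 : 2 ∈ T)
    (pr : ∀ l ∈ T', l.Prime) (r : Rp (Iu Γ T) Γ ρ) : rk (Z1 (Iu Γ (T ∪ T' : Finset ℕ)) Γ ρ) ≤
      (T'.card : ℕ) * Module.rank F2 N + rk (Z1 (Iu Γ T) Γ ρ) := by
  obtain ⟨ι, _, x, hx⟩ := plc Γ (T ∪ T') o
  refine ((self_le_add_left _ _).trans (enl1 o i h2 Finset.subset_union_left r hx)).trans
    (add_le_add_left ?_ _)
  have u : ∑ j, (if Ou T (x j) then 1 else 0) ≤ T'.card := by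
    rw [show T'.card = ∑ l ∈ T', Γ.index by simp [i], ← Finset.sum_congr rfl fun l hl =>
      deg Γ _ ι x l o hx (Finset.mem_coe.2 (Finset.mem_union_right T hl)) (.inr (pr l hl)),
      Finset.sum_comm]
    refine Finset.sum_le_sum fun j _ => ?_
    split_ifs with c
    · obtain ⟨l, hl, Q, a, c⟩ := c
      obtain ⟨l', m, a'⟩ := mem_ab_fp.1 (c ▸ Rps.self hx j)
      obtain rfl := GW.Pl.ov_uniq a a'
      refine le_trans ?_ (Finset.single_le_sum (fun _ _ => Nat.zero_le _)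
        ((Finset.mem_union.1 m).resolve_left hl))
      rw [if_pos (c ▸ mem_ab_fp.2 ⟨l, rfl, a⟩)]
      exact Nat.pos_of_ne_zero (le_of_open o _).relIndex
    · exact Nat.zero_le _
  refine le_trans ?_ (mul_le_mul_left (Nat.cast_le.2 u) _)
  rw [Nat.cast_sum, Finset.sum_mul]
  refine Finset.sum_le_sum fun j _ => ?_
  split_ifs
  · rw [Nat.cast_one, one_mul]
    exact Submodule.rank_le _
  · simp

end Vale.Agent.P014T.Pq
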