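import Vale.Agent.P014T.Iv.Inv
import Vale.Agent.P004F.Lt.Grp

/-! # P014T, block PRESQ: the local invariant at a tame place is an evaluation -/

set_option linter.all false

noncomputable section

namespace Vale.Agent.P014T.Pq

open NumberField Topology Filter
open Vale.Agent.P022 Vale.Agent.P022K
open Vale.Agent.P027M.S (Inert)
open Vale.Agent.P022D.W (dec inP_le_dec phi_mem)
open Vale.Agent.P022.H443 (inP)
open Vale.Agent.P022E.GW (Ov Fb Gn)
open Vale.Agent.P004S.Ga (K O d2 d3 Z2 B2)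
open Vale.Agent.P004S.Aq Vale.Agent.P004F.Rc Vale.Agent.P014T.Sy Vale.Agent.P014T.Iv
open Vale.Agent.P004F.Lt (Hm)
open scoped Classical

variable {l : ℕ} {P : Ideal (𝓞 Qb)} {φ t : GQ} {G : Type} [Monoid G] {s : GQ → G}
  {z : GQ → GQ → K}

/-- `z` depends only on the values of `s` -/
def Th (P : Ideal (𝓞 Qb)) (s : GQ → G) (z : GQ → GQ → K) : Prop :=
  ∀ g ∈ dec P, ∀ g' ∈ dec P, ∀ j ∈ dec P, ∀ j' ∈ dec P, s g = s g' → s j = s j' →
    z g j - z g' j' ∈ O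

/-- a cochain with invariant differential refines the homomorphism -/
theorem hm_ext (χ : GQ →* K) (c : Continuous χ) (i : ∀ g, χ g ∈ O) (u : ∀ g, Inert P g → χ g = 1)
    (n : ℕ) (h : Hm ⊤ P s) {θ : GQ → K} (ct : ContinuousOn θ (dec P)) (inv : Th P s (d2 χ θ)) :
    ∃ (G' : Type) (_ : Monoid G') (s' : GQ → G'), Hm ⊤ P s' ∧ ∀ g ∈ dec P, ∀ g' ∈ dec P,
      s' g = s' g' → s g = s g' ∧ hn n * (χ g - χ g') ∈ O ∧ θ g - θ g' ∈ O := by
  have := G2.cpt
  obtain ⟨k, hk⟩ := bdd (G2.dec_closed P).isCompact ct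
  let r : Con (dec P) :=
    { r := fun g g' => s g = s g' ∧ hn (n + k) * (χ g - χ g') ∈ O ∧ θ g - θ g' ∈ O
      iseqv := ⟨fun _ => ⟨rfl, by simp, by simp⟩, fun e => ⟨e.1.symm, O_of (neg_mem e.2.1) (by ring),
        O_of (neg_mem e.2.2) (by ring)⟩, fun e f => ⟨e.1.trans f.1,
        O_of (add_mem e.2.1 f.2.1) (by ring), O_of (add_mem e.2.2 f.2.2) (by ring)⟩⟩
      mul' := fun {g g' j j'} e f => ⟨by
        rw [Subgroup.coe_mul, Subgroup.coe_mul, h.mul _ ⟨trivial, g.2⟩ _ ⟨trivial, j.2⟩,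
          h.mul _ ⟨trivial, g'.2⟩ _ ⟨trivial, j'.2⟩, e.1, f.1],
        O_of (add_mem (O_mul (i g) f.2.1) (O_mul e.2.1 (i j'))) (by
          simp only [Subgroup.coe_mul, map_mul]; ring),
        O_of (sub_mem (add_mem (add_mem (O_mul (i g) f.2.2)
          (O_lv (lev_up (hk j' j'.2) (k.le_add_left n)) e.2.1)) e.2.2)
          (inv _ g.2 _ g'.2 _ j.2 _ j'.2 e.1 f.1)) (by simp only [d2, Subgroup.coe_mul]; ring)⟩ }
  let f : GQ → r.Quotient := fun g => if m : g ∈ dec P then r.mk' ⟨g, m⟩ else 1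
  have e : ∀ g (m : g ∈ dec P), f g = r.mk' ⟨g, m⟩ := fun g m => dif_pos m
  refine ⟨_, inferInstance, f, ⟨(e 1 (one_mem _)).trans (map_one r.mk'), fun g a j b => by
    rw [e _ a.2, e _ b.2, e _ (mul_mem a.2 b.2), ← map_mul]; rfl, ?_, fun g m => ?_⟩,
    fun g a g' b q => ?_⟩
  · obtain ⟨W, hW, w⟩ := h.lc
    obtain ⟨W1, h1, w1⟩ := nb (D := dec P) (S := (fun g => hn (n + k) * (χ g - χ 1)) ⁻¹' O)
      ((by fun_prop : Continuous fun g => hn (n + k) * (χ g - χ 1)).continuousWithinAt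
        (O_open.mem_nhds (by simp)))
    obtain ⟨W2, h2, w2⟩ := nb (S := (fun g => θ g - θ 1) ⁻¹' O)
      ((ct.sub continuousOn_const) 1 (one_mem _) (O_open.mem_nhds (by simp)))
    refine ⟨W ⊓ W1 ⊓ W2, (hW.inter h1.opn).inter h2.opn, fun g a b => ?_⟩
    rw [e _ a.2]
    exact r.eq.2 ⟨(w g a b.1.1).trans h.one.symm, w1 g a.2 b.1.2, w2 g a.2 b.2⟩
  · obtain ⟨a, ha⟩ := h.two g m
    have d := inP_le_dec (show g ∈ inP P from m)
    have j : ∀ b, g ^ b ∈ inP P := pow_mem (show g ∈ inP P from m)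
    have s1 : ∀ b, s (g ^ (2 ^ a * b)) = s 1 := fun b => by
      rw [h.pow ⟨trivial, d⟩, pow_mul, ha, one_pow, h.one]
    have s2 : ∀ b : ℕ, θ (g ^ (2 ^ a * b)) - θ 1 - b * (θ (g ^ 2 ^ a) - θ 1) ∈ O := fun b => by
      induction b with
      | zero => simp
      | succ b ih =>
        refine O_of (sub_mem ih (inv _ (pow_mem d _) _ (one_mem _) _ (pow_mem d (2 ^ a)) _ (one_mem _)
          (s1 b) (by simpa using s1 1))) ?_
        simp only [d2, u _ (j _), map_one, mul_one, ← pow_add, mul_add]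
        push_cast; ring
    refine ⟨a + k, ?_⟩
    rw [e _ d, ← map_pow]
    refine r.eq.2 ⟨(pow_add 2 a k).symm ▸ s1 _, by simp [u _ (j _)], ?_⟩
    exact O_of (add_mem (s2 (2 ^ k)) (sub_mem (hk _ (pow_mem d (2 ^ a))) (hk _ (one_mem _)))) (by
      simp only [pow_add, SubgroupClass.coe_pow, OneMemClass.coe_one]; push_cast; ring)
  · rw [e _ a, e _ b] at q
    obtain ⟨q1, q2, q3⟩ := r.eq.1 q
    exact ⟨q1, O_of (O_mul (O_pow k) q2) (by rw [← hn_add n k]; ring), q3⟩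

/-- the evaluation on the tame relation -/
def ev (l : ℕ) (φ t : GQ) (z : GQ → GQ → K) : K :=
  z φ t - z (t ^ l) φ - ∑ i ∈ Finset.range l, z (t ^ i) t + z 1 1

theorem ev_b2 (o : Ov l P) (h2 : l ≠ 2) (fb : Fb l P φ) (gn : Gn l P t) (h : Hm ⊤ P s)
    (inv : Th P s z) (b : B2 cy (dec P) z) : ev l φ t z ∈ O := by
  obtain ⟨θ, ct, e⟩ := b
  obtain ⟨G', _, s', h', q⟩ := hm_ext cy cy_cont O_cy (fun _ => cy_in o h2) 0 h ct
    fun g a g' a' j b j' b' u v => O_of (add_mem (sub_mem (inv g a g' a' j b j' b' u v) (e g a j b))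
      (e g' a' j' b')) (by ring)
  have p : P004F.Lt.Pl ⊤ l 1 P φ t := ⟨o, h2, one_pos, fb, gn, fun _ _ => trivial,
    fun i => iff_of_true trivial (one_dvd i), isOpen_univ⟩
  have a := p.phi
  have b := p.tau.2
  have k := (p.str h').1
  rw [pow_one, pow_one, ← h'.pow p.tau, ← h'.mul _ ⟨trivial, a⟩ _ p.tau,
    ← h'.mul _ (pow_mem p.tau l) _ ⟨trivial, a⟩] at k
  have i : ∀ n, cy (t ^ n) = 1 := fun n => by rw [map_pow, cy_in o h2 gn.1, one_pow]
  have m : ∑ n ∈ Finset.range l, d2 cy θ (t ^ n) t = l * θ t - (θ (t ^ l) - θ (t ^ 0)) := by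
    rw [← Finset.sum_range_sub fun n => θ (t ^ n), ← nsmul_eq_mul, ← Finset.card_range l,
      ← Finset.sum_const, Finset.card_range, ← Finset.sum_sub_distrib]
    exact Finset.sum_congr rfl fun n _ => by rw [d2, i, pow_succ]; ring
  refine O_of (sub_mem (add_mem (sub_mem (sub_mem (e φ a t b) (e _ (pow_mem b l) φ a))
    (sum_mem (t := Finset.range l) fun n _ => e _ (pow_mem b n) t b)) (e 1 (one_mem _) 1 (one_mem _)))
    (q _ (mul_mem a b) _ (mul_mem (pow_mem b l) a) k).2.2) ?_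
  rw [Finset.sum_sub_distrib, m]
  simp only [ev, d2, i, cy_fb' o h2 fb, pow_zero, map_one, mul_one]
  ring

/-- **the invariant is an odd multiple of the evaluation** -/
theorem iv_ev (N : ℕ) : ∃ w : ℕ → GQ → ℕ, (∀ l P t, Ov l P → l ≠ 2 → Gn l P t → Odd (w l t)) ∧
    ∀ (l : ℕ) (P : Ideal (𝓞 Qb)) (φ t : GQ), Ov l P → l ≠ 2 → Fb l P φ → Gn l P t →
      ∀ (G : Type) [Monoid G] (s : GQ → G) (z : GQ → GQ → K), Hm ⊤ P s → Z2 cy (dec P) z →
        (∀ g ∈ dec P, ∀ j ∈ dec P, 2 ^ N * z g j ∈ O) → Th P s z →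
        iv P z = w l t • mq (ev l φ t z) := by
  choose β hβ using fun l : ℕ => ex_rt (N + 1) (l : Qb)
  have : ∀ (l : ℕ) (t : GQ), ∃ w : ℕ, ∀ P, Ov l P → l ≠ 2 → Gn l P t →
      Odd w ∧ hn (N + 1) * (w * (l * (2 ^ (N + 1) * ku (β l) t)) - 1) ∈ O := fun l t => by
    by_cases h : ∃ P, Ov l P ∧ l ≠ 2 ∧ Gn l P t
    · obtain ⟨P, o, h2, gn⟩ := h
      have k : Rt ⊤ (N + 1) (β l) := rt_nat (hβ l) o.1.ne_zero
      have x := O_mul (O_nat l) (k.int (g := t) trivial)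
      obtain ⟨y, hy, e⟩ := unit x fun c => by
        have h1 := ((k.pow (2 ^ N)).fix (g := t) trivial).2 (O_of (add_mem (k.ku_pow (2 ^ N) trivial)
          (O_odd (o.1.odd_of_ne_two h2) (x := 2 ^ N * ku (β l) t) (O_of c (by field_simp; ring))))
          (by push_cast; ring))
        rw [gn.2 _ (by rw [← pow_mul, ← pow_succ, hβ]), neg_eq_iff_add_eq_zero, ← two_mul] at h1
        exact mul_ne_zero two_ne_zero (pow_ne_zero _ k.1) h1
      obtain ⟨w, hw⟩ := apx (N + 1) hy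
      have m : hn (N + 1) * (w * (l * (2 ^ (N + 1) * ku (β l) t)) - 1) ∈ O :=
        O_of (neg_mem (O_mul hw x)) (by rw [← e]; ring)
      refine ⟨w, fun _ _ _ _ => ⟨Nat.not_even_iff_odd.1 ?_, m⟩⟩
      rintro ⟨c, rfl⟩
      exact half_not (O_of (sub_mem (O_mul (O_nat c) x) (O_mul (O_pow N) m)) (by
        rw [hn]; push_cast; field_simp; ring))
    · exact ⟨0, fun P a b c => absurd ⟨P, a, b, c⟩ h⟩
  choose w hw using this
  refine ⟨w, fun l P t o h2 gn => (hw l t P o h2 gn).1, fun l P φ t o h2 fb gn G _ s z h hz lv inv => ?_⟩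
  obtain ⟨r, hr⟩ : ∃ r, mq r = iv P z := ⟨_, Quot.out_eq _⟩
  have r0 : 2 ^ N * r ∈ O := mq_zero.1 (by
    have := iv_b2 o (z := (2 ^ N : ℕ) • z) (b2_zero fun g a j b => by simpa [nsm] using lv g a j b)
    rw [map_nsmul, ← hr, ← mq_nat] at this
    exact_mod_cast this)
  have r1 : 2 ^ (N + 1) * r ∈ O := lev_up r0 N.le_succ
  have hb : β l ^ 2 ^ (N + 1) = bs l := by rw [bs, if_neg h2, hβ]
  have k : Rt (dec P) (N + 1) (β l) := rt_nat (hβ l) o.1.ne_zero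
  have U := ur_ps o h2 (fun g m => ps_int o m) r1
  obtain ⟨G1, _, s1, h1, q1⟩ := hm_ext 1 continuous_const (fun _ => O_one) (fun _ _ => rfl) 0 h
    U.ad.cont fun g a g' a' j b j' b' _ _ => O_of (sub_mem (U.ad.add g' a' j' b') (U.ad.add g a j b))
      (by simp only [d2, MonoidHom.one_apply]; ring)
  obtain ⟨G2, _, s2, h2', q2⟩ := hm_ext cy cy_cont O_cy (fun _ => cy_in o h2) (N + 1) h1
    (ku_cont (β l)).continuousOn fun g a g' a' j b j' b' _ _ =>
      O_of (sub_mem (k.coc a' b') (k.coc a b)) (by simp only [d2]; ring)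
  have key := ev_b2 o h2 fb gn h2' (z := z - cp (N + 1) (fun g => r * ps l g) (β l))
    (fun g a g' a' j b j' b' u v => by
      obtain ⟨u1, u2, -⟩ := q2 g a g' a' u
      obtain ⟨v1, -, v3⟩ := q2 j b j' b' v
      obtain ⟨u3, -, u4⟩ := q1 g a g' a' u1
      exact O_of (sub_mem (inv g a g' a' j b j' b' u3 (q1 j b j' b' v1).1) (add_mem (add_mem
        (O_mul u4 (O_mul (O_cy g) (k.int b))) (O_mul (O_lv (U.lv g' a') u2) (k.int b)))
        (O_cp (U.lv g' a') g' v3))) (by simp only [cp, Pi.sub_apply]; ring))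
    ((iv_iff o (sub_mem (show z ∈ ZZ _ from hz) (ps_z2 o hb r1))).1 (by
      rw [map_sub, iv_ps o hb r1, hr, sub_self]))
  have i : ∀ n, ps l (t ^ n) = 0 := fun n => ps_in o h2 l (pow_mem (show t ∈ inP P from gn.1) n)
  rw [← hr, ← mq_nat, mq_eq]
  refine O_of (neg_mem (add_mem (O_mul (O_nat (w l t)) key) (O_lv r1 (hw l t P o h2 gn).2))) ?_
  simp only [ev, cp, Pi.sub_apply, i, ps_fb o h2 fb, cy_fb' o h2 fb, ps_in o h2 l (one_mem _),
    mul_zero, zero_mul, sub_zero]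
  ring

end Vale.Agent.P014T.Pq
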