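import Vale.Agent.P014T.Pq.Pn
import Vale.Agent.P014T.Kq.Sy
import Vale.Agent.P004F.Lt.Loct
import Vale.Agent.P004F.Pa.Lev0

/-! # P014T, block PRESQ: the packages at a finite level -/

set_option linter.all false

open NumberField Matrix Submodule Set Sum
open scoped Pointwise Classical

noncomputable section

namespace Vale.Agent.P014T.Pq

open Vale.Agent.P022 Vale.Agent.P022K Vale.Agent.P022K.G2
open Vale.Agent.P027M.S (Inert)
open Vale.Agent.P022D.W (dec inP_le_dec phi_mem)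
open Vale.Agent.P022E.GW (Ov Fb Gn)
open Vale.Agent.P004F (Nt)
open Vale.Agent.P004F.Pr (F2 ac zero_ac mul_ac ac_zero)
open Vale.Agent.P004F.Pa.Lv (sel ac_sel sel_mul Tp ac_mk)
open Kq (M2 F4 Gl Pk)

variable {R : Type} [CommRing R] {σ ι β : Type}

/-- a tame place with a Frobenius element and a generator of tame inertia -/
structure Tm (a : GQ → M2 R) (l : ℕ) (P : Ideal (𝓞 Qb)) (φ t : GQ) : Prop where
  ov : Ov l P
  ne : l ≠ 2
  fb : Fb l P φ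
  gn : Gn l P t
  ord : ∀ g, Inert P g → ∃ n : ℕ, a g ^ 2 ^ n = 1

/-- the tame places of a stage -/
structure Ps (s : Type) where
  l : s → ℕ
  P : s → Ideal (𝓞 Qb)
  φ : s → GQ
  t : s → GQ

/-- bad places `σ` and Kolyvagin places `ι` -/
structure Ps.Ok (q : Ps (σ ⊕ ι)) (γ : Gl R GQ σ) (τ : GQ) : Prop where
  tm : ∀ x, Tm γ.ρ (q.l x) (q.P x) (q.φ x) (q.t x)
  inj : Function.Injective q.l
  hN : ∀ y, γ.N y = Nt (γ.ρ (q.φ (inl y))) (γ.ρ (q.t (inl y))) (q.l (inl y))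
  kφ : ∀ x, γ.ρ (q.φ (inr x)) = γ.ρ τ
  kt : ∀ x g, Inert (q.P (inr x)) g → γ.ρ g = 1
  kl : ∀ x, (q.l (inr x) : R) = 1

/-- framed cocycles which are coboundaries on the groups `D b` -/
def Sf (M : Type) [AddCommGroup M] [Module R M] (T : Finset ℕ) (a : GQ → M2 R) (c : GQ)
    (D : β → Subgroup GQ) : Set ((GQ → Fin 2 → M) × (β → Fin 2 → M)) :=
  {x | x.1 ∈ Zq M T a c ∧ ∀ b, ∀ g ∈ D b, x.1 g = ac (a g - 1) (x.2 b)}

variable [Fintype σ] [Fintype ι]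

/-- **the universal property** -/
structure Lu (γ : Gl R GQ σ) (τ : GQ) (T : Finset ℕ) (c : GQ) (D : β → Subgroup GQ)
    (q : Ps (σ ⊕ ι)) (p : Pk R GQ σ ι) (m : β → Matrix (Fin 2) (Fin p.g) R) : Prop where
  bij : ∀ (M : Type) [AddCommGroup M] [Module R M],
    BijOn (fun y : Fin p.g → M => (fun g => ac (p.u g) y, fun b => ac (m b) y))
      {y | ac (p.Rm γ τ) y = 0} (Sf M T γ.ρ c D)
  hl : ∀ y i, p.l y i - Sum.elim (p.u (q.φ (inl y))) (p.u (q.t (inl y))) i ∈ p.Rl γ τ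
  hF : ∀ x i, p.F x i - p.u (q.φ (inr x)) i ∈ p.Rl γ τ
  hS : ∀ x i, p.S x i - p.u (q.t (inr x)) i ∈ p.Rl γ τ

variable {T : Finset ℕ} {a : GQ → M2 R}

theorem Tm.tp [Finite R] {k l : ℕ} {P : Ideal (𝓞 Qb)} {φ t : GQ} (h2 : (2 : R) ^ k = 0)
    (G : Gd ⊤ T a) (h : Tm a l P φ t) : ∃ b, Tp ⊤ a P φ t (Nt (a φ) (a t) l) b := by
  obtain ⟨b, b1, b2, b3, b4, b5⟩ := P004F.Lt.loct R k h2 ⊤ l 1 P φ t a h.ov h.ne one_pos h.fb h.gn
    (fun _ _ => trivial) (fun i => iff_of_true trivial (one_dvd i)) G.opn G.one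
    (fun g m j n => G.mul g m.1 j n.1) (G.lc.imp fun W k => ⟨k.1, fun w m => k.2 w m.1⟩) h.ord
  simp only [pow_one] at b1 b3 b5
  exact ⟨b, ⟨trivial, phi_mem h.ov.1 h.ov.2.1 h.fb⟩, ⟨trivial, inP_le_dec h.gn.1⟩,
    b1, b2, b3, b4, b5⟩

theorem nt_kol {A : M2 R} {l : ℕ} (h : (l : R) = 1) : Nt A 1 l = fromCols 0 (A - 1) := by
  rw [Nt, one_pow, sub_self, Finset.sum_congr rfl fun i _ => one_pow i, Finset.sum_const,
    Finset.card_range, ← Nat.cast_smul_eq_nsmul R, h, one_smul]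

variable (β) in
/-- the parameters -/
abbrev Mu (s : Type) : Type := (β × Fin 2) ⊕ s × F4

def f2 {s : Type} (b : β) (i : Fin 2) : Mu β s := inl (b, i)

def f3 {s : Type} (x : s) (i : F4) : Mu β s := inr (x, i)

variable [Fintype β]

/-- the local conditions -/
def bl {s : Type} [Fintype s] (a : GQ → M2 R) (b : s → GQ → Matrix (Fin 2) F4 R) :
    Unit ⊕ β ⊕ s → GQ → Matrix (Fin 2) (Mu β s) R
  | inl _, _ => 0
  | inr (inl p), g => (a g - 1) * sel R (f2 p)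
  | inr (inr x), g => b x g * sel R (f3 x)

/-- the local relations -/
def nl {s : Type} [Fintype s] (N : s → Matrix (Fin 2) F4 R) : Matrix (s × Fin 2) (Mu β s) R :=
  .of fun x => (N x.1 * sel R (f3 x.1)) x.2

section sl

variable {s M : Type} [Fintype s] [AddCommGroup M] [Module R M] {b : s → GQ → Matrix (Fin 2) F4 R}

theorem ac_b2 (p : β) (g : GQ) (y : Mu β s → M) :
    ac (bl a b (inr (inl p)) g) y = ac (a g - 1) (y ∘ f2 p) := by rw [bl, mul_ac, ac_sel]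

theorem ac_b3 (x : s) (g : GQ) (y : Mu β s → M) :
    ac (bl a b (inr (inr x)) g) y = ac (b x g) (y ∘ f3 x) := by rw [bl, mul_ac, ac_sel]

theorem ac_nl (N : s → Matrix (Fin 2) F4 R) (y : Mu β s → M) (x : s × Fin 2) :
    ac (nl N) y x = ac (N x.1) (y ∘ f3 x.1) x.2 :=
  congrFun ((mul_ac (N x.1) _ _).trans (congrArg _ (ac_sel _ _))) x.2

theorem nl_mul {ν : Type} (N : s → Matrix (Fin 2) F4 R) (w : Matrix (Mu β s) ν R) (x : s)
    (i : Fin 2) : (nl N * w : Matrix _ _ R) (x, i) = (N x * w.submatrix (f3 x) id : Matrix _ _ R) i := by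
  rw [← sel_mul, ← Matrix.mul_assoc]; rfl

end sl

theorem lev0 [IsLocalRing R] [Finite R] [Subsingleton β] (π : R →+* F2) {k : ℕ}
    (h0 : (2 : R) ^ k = 0) {γ : Gl R GQ σ} {τ c : GQ} {q : Ps (σ ⊕ ι)} (G : Gd ⊤ T γ.ρ)
    (h2 : 2 ∈ T) (hc : IsConj c) (o : q.Ok γ τ) (mem : ∀ x, q.l x ∈ T)
    {P₂ : β → Ideal (𝓞 Qb)} (o2 : ∀ b, Ov 2 (P₂ b))
    (rel : (∀ v : Fin 2 → F2, (∀ g, vecMul v ((γ.ρ g).map π) = v) → v = 0) ∨
      ∃ l ∈ T, l ≠ 2 ∧ (∀ x, q.l x ≠ l) ∧ ∃ Q, Ov l Q ∧ ∀ g ∈ dec Q, (γ.ρ g).map π = 1) {C : ℕ}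
    (bd : ∀ (P : Unit ⊕ β ⊕ σ ⊕ ι → Subgroup GQ) (b : _ → _ → Matrix (Fin 2) (Mu β (σ ⊕ ι)) F2),
      Nat.card (Zs F2 ⊤ T (fun g => (γ.ρ g).map π) P b) ≤ 2 ^ C) :
    ∃ (p : Pk R GQ σ ι) (m : β → Matrix (Fin 2) (Fin p.g) R),
      Lu γ τ T c (fun b => dec (P₂ b)) q p m ∧ p.Q.map π = 0 ∧
      p.g ≤ C + 2 * (Fintype.card σ + Fintype.card ι) ∧
      p.r + 2 * (Fintype.card σ + Fintype.card ι) + 2 = p.g + 2 * Fintype.card β := by
  obtain ⟨φc, hk⟩ := hc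
  choose b ht using fun x => (o.tm x).tp h0 G
  let N : σ ⊕ ι → Matrix (Fin 2) F4 R := fun x => Nt (γ.ρ (q.φ x)) (γ.ρ (q.t x)) (q.l x)
  let y : Unit ⊕ β ⊕ σ ⊕ ι → Plc := Sum.elim (fun _ => ip (InfinitePlace.mk φc))
    (Sum.elim (fun b => fp (P₂ b)) fun x => fp (q.P x))
  have e0 : ∀ g, g ∈ St (ip (InfinitePlace.mk φc)) ↔ g = 1 ∨ g = c := fun g =>
    Set.ext_iff.1 (st_conj hk) g
  have uq : ∀ {l l' : ℕ} {P P' : Ideal (𝓞 Qb)} {g : GQ}, Ov l P → Ov l' P' → fp P' = g • fp P →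
      l = l' := fun {_ _ P P' g} a a' e =>
    GW.Pl.ov_uniq (GW.ov_smul a g) ((show P' = g • P from Sum.inl.inj e) ▸ a')
  obtain ⟨g, r, Q, u, w, hQ, h1, h3, h4⟩ := presn (π := π) (y := y) (b := bl γ.ρ b) (N := nl N)
    (by simp) G h2
    (by
      rintro (_ | p | x)
      exacts [mem_ab_ip.2 (Set.mem_insert _ _), mem_ab_fp.2 ⟨2, .inr h2, o2 p⟩,
        mem_ab_fp.2 ⟨_, .inr (mem x), (o.tm x).ov⟩])
    (by
      rintro (_ | p | x) (_ | p' | x') g e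
      exacts [rfl, absurd e Sum.inl_ne_inr, absurd e Sum.inl_ne_inr, absurd e Sum.inr_ne_inl,
        by rw [Subsingleton.elim p p'], absurd (uq (o2 p) (o.tm x').ov e).symm (o.tm x').ne,
        absurd e Sum.inr_ne_inl, absurd (uq (o.tm x).ov (o2 p') e) (o.tm x).ne,
        by rw [o.inj (uq (o.tm x).ov (o.tm x').ov e)]])
    ⟨inl (), _, rfl⟩
    (by
      rintro (_ | p | x) g hg h hh
      · exact ⟨0, by simp [bl]⟩
      · refine ⟨0, ?_⟩
        rw [Matrix.zero_mul, add_zero, bl, bl, bl, map_mul, ← Matrix.mul_assoc, ← Matrix.add_mul]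
        refine congrArg (· * _) ?_
        noncomm_ring
      · obtain ⟨δ, e⟩ := (ht x).coc g ⟨trivial, (st_fp _).le hg⟩ h ⟨trivial, (st_fp _).le hh⟩
        rw [bl, bl, bl, e, Matrix.add_mul, Matrix.add_mul, Matrix.mul_assoc, Matrix.mul_assoc]
        exact ⟨δ * sel R fun i : Fin 2 => (x, i), by rw [Matrix.mul_assoc, sel_mul]; rfl⟩)
    (by
      rintro (_ | p | x)
      · exact ⟨⊤, isOpen_univ, fun _ _ _ _ _ => rfl⟩
      · obtain ⟨W, hW, e⟩ := G.lc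
        exact ⟨W, hW, fun g hg w hw m => by rw [bl, bl, map_mul, e w trivial m, mul_one]⟩
      · obtain ⟨W, hW, e⟩ := (ht x).lc
        exact ⟨W, hW, fun g hg w hw m => by
          rw [bl, bl, e g ⟨trivial, (st_fp _).le hg⟩ w ⟨trivial, (st_fp _).le hw⟩ m]⟩)
    (rel.imp id fun ⟨l, hl, l2, n, Q, oq, t⟩ => ⟨l, hl, l2, Q, oq, t, by
      rintro (_ | p | x) g e
      exacts [absurd e Sum.inl_ne_inr, l2 (uq (o2 p) oq e).symm, n x (uq (o.tm x).ov oq e)]⟩)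
  let p : Pk R GQ σ ι := ⟨g, r, Q, fun y => w.submatrix (f3 (inl y)) id,
    fun x => w.submatrix (f3 (inr x) ∘ inl) id, fun x => w.submatrix (f3 (inr x) ∘ inr) id, u⟩
  have eR : p.Rm γ τ = .of (Sum.elim Q (nl N * w)) := by
    have := nl_mul N w
    refine Matrix.ext fun i j => ?_
    rcases i with i | ⟨x | x, i⟩
    · rfl
    · refine Eq.trans ?_ (congrFun (this (inl x) i) j).symm
      rw [show N (inl x) = γ.N x from (o.hN x).symm]; rfl
    · refine Eq.trans ?_ (congrFun (this (inr x) i) j).symm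
      rw [show N (inr x) = _ from (congrArg₂ (Nt · · _) (o.kφ x) (o.kt x _ (o.tm _).gn.1)).trans
        (nt_kol (o.kl x)), ← fromRows_toRows (w.submatrix (f3 (inr x)) id), fromCols_mul_fromRows,
        Matrix.zero_mul, zero_add]
      rfl
  have k0 : ∀ (M : Type) [AddCommGroup M] [Module R M] (v : Fin g → M),
      ac (p.Rm γ τ) v = 0 ↔ ac Q v = 0 ∧ ac (nl N * w) v = 0 := fun M _ _ v => by
    rw [eR]
    exact ⟨fun h => ⟨funext fun i => congrFun h (inl i), funext fun i => congrFun h (inr i)⟩,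
      fun h => funext fun i => i.rec (congrFun h.1) (congrFun h.2)⟩
  have z3 : ∀ (M : Type) [AddCommGroup M] [Module R M]
      {x : (GQ → Fin 2 → M) × (Mu β (σ ⊕ ι) → M)}, x ∈ Zs M ⊤ T γ.ρ (fun i => St (y i)) (bl γ.ρ b) →
      ∀ s, x.2 ∘ f3 s = Sum.elim (x.1 (q.φ s)) (x.1 (q.t s)) := fun M _ _ x h s =>
    (ht s).det fun g hg => by
      rw [h.2.2.2.2 (inr (inr s)) g ⟨trivial, (st_fp _).ge hg.2⟩, ac_b3]
  have k4 := z3 _ ((h1 _).mapsTo ((k0 _ _).1 ((ac_mk (p.Rl γ τ) (p.Rm γ τ)).trans (funext fun i =>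
    (Submodule.Quotient.mk_eq_zero _).2 (subset_span ⟨i, rfl⟩))))).1
  have am {s : Type} (E : Matrix s (Fin g) R) := ac_mk (p.Rl γ τ) E
  replace k4 := fun s => ((congrArg (· ∘ f3 s) (am w)).symm.trans (k4 s)).trans
    (congrArg₂ Sum.elim (am _) (am _))
  refine ⟨p, fun s => w.submatrix (f2 s) id, ⟨fun M _ _ => ?_, fun s i => ?_, fun s i => ?_,
    fun s i => ?_⟩, hQ, ?_, ?_⟩
  · refine ⟨fun v hv => ?_, fun v hv v' hv' e => ?_, fun x ⟨⟨x1, x2, x3, x4⟩, x5⟩ => ?_⟩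
    · obtain ⟨x1, x2, x3, x4⟩ := mem_zs.1 ((h1 M).1 ((k0 M v).1 hv)).1
      exact ⟨⟨x1, x2, x3, (x4 (inl ()) c ((e0 c).2 (.inr rfl))).trans (zero_ac _)⟩, fun s g m =>
        (x4 (inr (inl s)) g ((st_fp _).ge m)).trans (ac_b2 _ _ _)⟩
    · obtain ⟨e1, e2⟩ := Prod.ext_iff.1 e
      refine (h1 M).2.1 ((k0 M v).1 hv) ((k0 M v').1 hv') (Prod.ext e1 (funext ?_))
      rintro (⟨s, i⟩ | ⟨s, i⟩)
      · exact congrFun (congrFun e2 s) i
      · exact congrFun (((z3 M ((h1 M).1 ((k0 M v).1 hv)).1 s).trans (congrArg₂ Sum.elim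
          (congrFun e1 _) (congrFun e1 _))).trans (z3 M ((h1 M).1 ((k0 M v').1 hv')).1 s).symm) i
    · have kk := fun s => (ht s).un M x.1 (fun g _ g' _ => x1 g g')
        (x2.imp fun W m => ⟨m.1, fun w _ => m.2 w⟩)
      obtain ⟨v, hv, e⟩ := (h1 M).2.2 (show (x.1, Sum.elim (fun s => x.2 s.1 s.2)
          fun s => Sum.elim (x.1 (q.φ s.1)) (x.1 (q.t s.1)) s.2) ∈ _ from
        ⟨mem_zs.2 ⟨x1, x2, x3, by
          rintro (_ | s | s) g hg
          · obtain ⟨W, -, w⟩ := x2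
            refine Eq.trans ?_ (zero_ac _).symm
            obtain rfl | rfl := (e0 g).1 hg
            exacts [w 1 (one_mem _), x4]
          · rw [ac_b2]; exact x5 s g ((st_fp _).le hg)
          · rw [ac_b3]; exact (kk s).2 g ⟨trivial, (st_fp _).le hg⟩⟩,
          funext fun s => (ac_nl N _ s).trans (congrFun (kk s.1).1 s.2)⟩)
      exact ⟨v, (k0 M v).2 hv, Prod.ext (congrArg Prod.fst e :) (funext fun s => funext fun i =>
        congrFun (congrArg Prod.snd e) (inl (s, i)))⟩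
  · refine (Submodule.Quotient.eq _).1 ((congrFun (k4 (inl s)) i).trans ?_)
    rcases i with i | i <;> rfl
  · exact (Submodule.Quotient.eq _).1 (congrFun (k4 (inr s)) (inl i))
  · exact (Submodule.Quotient.eq _).1 (congrFun (k4 (inr s)) (inr i))
  · rw [← Nat.pow_le_pow_iff_right one_lt_two, pow_add]
    refine h3.trans ?_
    rw [Fintype.card_prod, Fintype.card_fin, Fintype.card_sum, mul_comm _ 2]
    exact Nat.mul_le_mul_right _ (bd _ _)
  · have w2 : ∀ s, wt (fp (P₂ s)) = 2 := fun s => (wt_fp (o2 s)).trans (if_pos rfl)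
    have w1 : ∀ s, wt (fp (q.P s)) = 1 := fun s => (wt_fp (o.tm s).ov).trans (if_neg (o.tm s).ne)
    simp only [Fintype.sum_sum_type, y, Sum.elim_inl, Sum.elim_inr, wt_ip, w1, w2, Finset.sum_const,
      Finset.card_univ, smul_eq_mul, Fintype.card_sum, Fintype.card_prod, Fintype.card_fin] at h4
    change r + _ + _ = g + _
    omega

/-- **packages exist, with a bounded number of generators** -/
theorem levq {a₀ : GQ → M2 F2} {S : Finset ℕ} (h₀ : Gd ⊤ S a₀) (h2 : 2 ∈ S) : ∃ C : ℕ,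
    ∀ (R : Type) [CommRing R] [IsLocalRing R] [Finite R] (π : R →+* F2) (k : ℕ) (σ ι β : Type)
      [Fintype σ] [Fintype ι] [Fintype β] [Subsingleton β] (γ : Gl R GQ σ) (τ c : GQ)
      (q : Ps (σ ⊕ ι)) (T' : Finset ℕ) (P₂ : β → Ideal (𝓞 Qb)), (2 : R) ^ k = 0 →
      (∀ g, (γ.ρ g).map π = a₀ g) → Gd ⊤ (S ∪ T') γ.ρ → IsConj c → q.Ok γ τ →
      (∀ x, q.l x ∈ S ∪ T') → (∀ b, Ov 2 (P₂ b)) →
      ((∀ v : Fin 2 → F2, (∀ g, vecMul v (a₀ g) = v) → v = 0) ∨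
        ∃ l ∈ S ∪ T', l ≠ 2 ∧ (∀ x, q.l x ≠ l) ∧ ∃ Q, Ov l Q ∧ ∀ g ∈ dec Q, a₀ g = 1) →
      ∃ (p : Pk R GQ σ ι) (m : β → Matrix (Fin 2) (Fin p.g) R),
        Lu γ τ (S ∪ T') c (fun b => dec (P₂ b)) q p m ∧ p.Q.map π = 0 ∧
        p.g ≤ C + 2 * T'.card + 6 * (Fintype.card σ + Fintype.card ι) ∧
        p.r + 2 * (Fintype.card σ + Fintype.card ι) + 2 = p.g + 2 * Fintype.card β := by
  obtain ⟨C, hC⟩ := bnd h₀ h2
  refine ⟨C + 2, fun R _ _ _ π k σ ι β _ _ _ _ γ τ c q T' P₂ h0 e G hc o mem o2 rel => ?_⟩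
  obtain ⟨p, m, h1, h3, h4, h5⟩ := lev0 π h0 G (Finset.mem_union_left _ h2) hc o mem o2
    (by simpa only [e] using rel) (fun P b => by
      rw [funext e]
      exact hC _ _ T' P b fun l m => G.pr l (Finset.mem_union_right _ m))
  refine ⟨p, m, h1, h3, h4.trans ?_, h5⟩
  have := Fintype.card_le_one_iff_subsingleton.2 (inferInstance : Subsingleton β)
  simp only [Fintype.card_sum, Fintype.card_prod, Fintype.card_fin]
  omega

end Vale.Agent.P014T.Pq
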