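import Vale.Agent.P014T.Pq.All
import Vale.Agent.P004F.Pn.Pn0

/-!
# P014T, block PRESQ: presentations when the local relations are not minimal
-/

set_option linter.all false

noncomputable section

namespace Vale.Agent.P014T.Pq

open NumberField
open Vale.Agent.P022 Vale.Agent.P022K.G2
open Vale.Agent.P022D.W (dec)
open Vale.Agent.P022E.GW (Ov)
open Vale.Agent.P004F.Pr (F2 ac ac_add ac_zero zero_ac mul_ac one_ac add_ac)
open Vale.Agent.P004F.Pn (piv)
open scoped Pointwise Classical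

variable {R : Type} [CommRing R] {π : R →+* ZMod 2} {n ν κ : Type} [Fintype n] [DecidableEq n]
  [Fintype ν] [Fintype κ] {Γ : Subgroup GQ} {T : Finset ℕ} {a : GQ → Matrix n n R}
  {P : κ → Subgroup GQ}

variable (Γ T a P) in
/-- `(Q, u, w)` is a presentation with its universal element -/
def Bj {μ g r : Type} [Fintype μ] [Fintype g] (b : κ → GQ → Matrix n μ R) (N : Matrix ν μ R)
    (Q : Matrix r g R) (u : GQ → Matrix n g R) (w : Matrix μ g R) : Prop :=
  ∀ (M : Type) [AddCommGroup M] [Module R M],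
    Set.BijOn (fun y : g → M => (fun γ => ac (u γ) y, ac w y))
      {y | ac Q y = 0 ∧ ac (N * w) y = 0} {x | x ∈ Zs M Γ T a P b ∧ ac N x.2 = 0}

/-- one parameter is eliminated -/
theorem Bj.step {μ μ' r : Type} [Fintype μ] [Fintype μ'] [DecidableEq μ'] {g : ℕ} {b : κ → GQ → Matrix n μ R}
    {N : Matrix ν μ R} {Q : Matrix r (Fin g) R} {u w} {A : Matrix μ μ' R} {V : Matrix μ' μ R}
    {e : Matrix μ Unit R} {d : Matrix Unit ν R} (h1 : V * A = 1) (h2 : A * V + e * d * N = 1)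
    (h3 : d * N * A = 0) (h4 : d * N * e = 1) (h : Bj Γ T a P (fun i γ => b i γ * A) (N * A) Q u w) :
    Bj Γ T a P b N (.of fun t => Fin.cons 0 (Q t)) (fun γ => .of fun i => Fin.cons 0 (u γ i))
      (.of fun j => Fin.cons (e j ()) ((A * w) j) : Matrix _ (Fin (g + 1)) R) := by
  intro M _ _
  have c {s : Type} (x : Matrix s Unit R) (B : Matrix s (Fin g) R) (y : Fin (g + 1) → M) :
      ac (Matrix.of fun j => Fin.cons (x j ()) (B j)) y = ac x (fun _ => y 0) + ac B (Fin.tail y) :=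
    funext fun j => by simp [ac, Fin.sum_univ_succ, Fin.tail]
  have c0 {s : Type} (B : Matrix s (Fin g) R) (y : Fin (g + 1) → M) :
      ac (Matrix.of fun j => Fin.cons 0 (B j)) y = ac B (Fin.tail y) :=
    (c 0 B y).trans (by rw [zero_ac, zero_add])
  have z {x : (GQ → n → M) × (μ' → M)} :
      x ∈ Zs M Γ T a P (fun i γ => b i γ * A) ↔ (x.1, ac A x.2) ∈ Zs M Γ T a P b :=
    and_congr_right' <| and_congr_right' <| and_congr_right' <| and_congr_right' <| by
      simp only [mul_ac]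
  have y0 {y : Fin (g + 1) → M} {v : μ' → M} (k : ac N (ac e (fun _ => y 0) + ac A v) = 0) :
      (fun _ : Unit => y 0) = 0 := by
    have := congrArg (ac d) k
    rwa [← mul_ac, ac_add, ← mul_ac, ← mul_ac, h3, h4, zero_ac, add_zero, one_ac, ac_zero] at this
  have k2 : Set.BijOn (fun x : (GQ → n → M) × (μ' → M) => (x.1, ac A x.2)) _
      {x | x ∈ Zs M Γ T a P b ∧ ac N x.2 = 0} := ⟨fun x hx => ⟨z.1 hx.1, (mul_ac _ _ _).symm.trans hx.2⟩,
    fun x (_ : x ∈ Zs M Γ T a P (fun i γ => b i γ * A) ∧ ac (N * A) x.2 = 0) x' _ k =>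
      Prod.ext (Prod.mk.inj k).1 (by
        rw [← one_ac (R := R) x.2, ← one_ac (R := R) x'.2, ← h1, mul_ac, mul_ac, (Prod.mk.inj k).2]), fun x hx => by
      have : ac A (ac V x.2) = x.2 := by
        have := congrArg (ac · x.2) h2
        simpa only [add_ac, mul_ac, one_ac, hx.2, ac_zero, add_zero] using this
      exact ⟨(x.1, ac V x.2), ⟨z.2 (this.symm ▸ hx.1), by rw [mul_ac, this, hx.2]⟩,
        Prod.ext rfl this⟩⟩
  have k1 : Set.BijOn (Fin.tail : (Fin (g + 1) → M) → _) {y | ac Q (Fin.tail y) = 0 ∧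
      ac N (ac e (fun _ => y 0) + ac A (ac w (Fin.tail y))) = 0}
      {y | ac Q y = 0 ∧ ac (N * A * w) y = 0} := by
    refine ⟨fun y hy => ⟨hy.1, ?_⟩, fun y hy y' hy' k => ?_,
      fun t ht => ⟨Fin.cons 0 t, ⟨ht.1, ?_⟩, rfl⟩⟩
    · have := hy.2
      rwa [y0 this, ac_zero, zero_add, ← mul_ac, ← mul_ac] at this
    · rw [← Fin.cons_self_tail y, ← Fin.cons_self_tail y', k, congrFun (y0 hy.2) (),
        congrFun (y0 hy'.2) ()]
    · rw [← ht.2, mul_ac, mul_ac]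
      exact congrArg _ ((congrArg (· + _) (ac_zero e)).trans (zero_add _))
  simp only [mul_ac, c, c0]
  refine (k2.comp ((h M).comp k1)).congr fun y hy => Prod.ext rfl ?_
  rw [y0 hy.2, ac_zero, zero_add]; rfl

/-- the number of generators -/
theorem Bj.card {μ r : Type} [Fintype μ] {g : ℕ} {b : κ → GQ → Matrix n μ R}
    {N : Matrix ν μ R} {Q : Matrix r (Fin g) R} {u w} (h : Bj Γ T a P b N Q u w) (m : Q.map π = 0)
    (hG : Gd Γ T a) : 2 ^ g ≤ Nat.card (Zs (ZMod 2) Γ T (fun γ => (a γ).map π) P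
      fun i γ => (b i γ).map π) * 2 ^ Fintype.card ν := by
  have hk := zs_fin (P := P) (b := fun i g => (b i g).map π) (hG.map π)
  letI : Module R F2 := Module.compHom _ π
  let f : (Fin g → F2) →+ (ν → F2) := .mk' (ac (N * w)) (ac_add _)
  have e (y : f.ker) : ac Q y.1 = 0 ∧ ac (N * w) y.1 = 0 :=
    ⟨(show _ = ac (Q.map π) y.1 from rfl).trans (by rw [m, zero_ac]), y.2⟩
  rw [show 2 ^ g = Nat.card (Fin g → F2) by simp, ← AddSubgroup.card_mul_index f.ker,
    AddSubgroup.index_ker]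
  exact Nat.mul_le_mul (Nat.card_le_card_of_injective (fun y => ⟨_, ((h F2).1 (e y)).1⟩)
    fun y y' c => Subtype.ext ((h F2).2.1 (e y) (e y') (congrArg Subtype.val c)))
    ((Nat.card_le_card_of_injective _ Subtype.val_injective).trans_eq (by simp))

variable [IsLocalRing R]

/-- reduction to minimal relations -/
theorem red {s t : ℕ} {X : ∀ (μ : Type) [Fintype μ], (κ → GQ → Matrix n μ R) → Matrix ν μ R → Prop}
    (hX : ∀ (μ μ' : Type) [Fintype μ] [Fintype μ'] b N (A : Matrix μ μ' R), X μ b N →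
      X μ' (fun i γ => b i γ * A) (N * A))
    (H : ∀ (μ : Type) [Fintype μ] b N, X μ b N → N.map π = 0 → ∃ (g r : ℕ)
      (Q : Matrix (Fin r) (Fin g) R) (u : _) (w : _), Q.map π = 0 ∧ Bj Γ T a P b N Q u w ∧
        r + Fintype.card μ + s = g + t) (m : ℕ) :
    ∀ (μ : Type) [Fintype μ] (b : κ → GQ → Matrix n μ R) (N : Matrix ν μ R), X μ b N →
    Fintype.card μ = m → ∃ (g r : ℕ) (Q : Matrix (Fin r) (Fin g) R) (u : _) (w : _), Q.map π = 0 ∧
      Bj Γ T a P b N Q u w ∧ r + Fintype.card μ + s = g + t := by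
  induction m using Nat.strong_induction_on with | _ m ih => ?_
  intro μ _ b N h e
  by_cases c : N.map π = 0
  · exact H μ b N h c
  obtain ⟨i, j, c⟩ : ∃ i j, π (N i j) ≠ 0 := by simpa [← Matrix.ext_iff] using c
  obtain ⟨x, hx⟩ := ((IsLocalRing.isUnit_or_isUnit_one_sub_self (N i j)).resolve_right fun k =>
    (k.map π).ne_zero (by rw [map_sub, map_one,
      (show ∀ x : ZMod 2, x ≠ 0 → x = 1 by decide) _ c, sub_self])).exists_left_inv
  have cd : Fintype.card μ = Fintype.card {k // k ≠ j} + 1 := by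
    rw [← Fintype.card_option, Fintype.card_congr (Equiv.optionSubtypeNe j)]
  obtain ⟨A, V, d, d', h1, h2, h3, h4⟩ := piv N hx
  obtain ⟨g, r, Q, u, w, q, hb, e⟩ := ih _ (by omega) _ _ _ (hX μ _ b N A h) rfl
  refine ⟨g + 1, r, _, _, _, Matrix.ext fun t l => ?_, hb.step h1 h2 h3 h4, by omega⟩
  induction l using Fin.cases
  exacts [map_zero π, congrFun (congrFun q t) _]

/-- **the presentation over the rationals without minimality of the relations `N`** -/
theorem presn [Finite R] {μ : Type} [Fintype μ] {a : GQ → Matrix n n R} {y : κ → Plc}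
    {b : κ → GQ → Matrix n μ R} {N : Matrix ν μ R} (c2 : Fintype.card n ≤ 2) (h : Gd ⊤ T a)
    (h2 : 2 ∈ T) (ov : ∀ i, y i ∈ Ab (insert 0 T)) (un : ∀ i j, ∀ g : GQ, y j = g • y i → i = j)
    (fr : ∃ i w, y i = ip w)
    (coc : ∀ i, ∀ g ∈ St (y i), ∀ h ∈ St (y i), ∃ β : Matrix n ν R,
      b i (g * h) = b i g + a g * b i h + β * N)
    (lc : ∀ i, ∃ W : Subgroup GQ, IsOpen (W : Set GQ) ∧ ∀ g ∈ St (y i),
      ∀ w ∈ St (y i), w ∈ W → b i (g * w) = b i g)
    (rel : (∀ v : n → F2, (∀ g, Matrix.vecMul v ((a g).map π) = v) → v = 0) ∨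
      ∃ l ∈ T, l ≠ 2 ∧ ∃ Q, Ov l Q ∧ (∀ g ∈ dec Q, (a g).map π = 1) ∧
        ∀ i, ∀ g : GQ, fp Q ≠ g • y i) :
    ∃ (g r : ℕ) (Q : Matrix (Fin r) (Fin g) R) (u : GQ → Matrix n (Fin g) R)
      (w : Matrix μ (Fin g) R), Q.map π = 0 ∧ Bj ⊤ T a (fun i => St (y i)) b N Q u w ∧
      2 ^ g ≤ Nat.card (Zs F2 ⊤ T (fun γ => (a γ).map π) (fun i => St (y i))
        fun i γ => (b i γ).map π) * 2 ^ Fintype.card ν ∧
      r + Fintype.card μ + Fintype.card n = g + (∑ i, wt (y i)) * Fintype.card n := by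
  obtain ⟨g, r, Q, u, w, q, hb, e⟩ := red (π := π) (Γ := ⊤) (T := T) (a := a)
    (P := fun i => St (y i)) (s := Fintype.card n) (t := (∑ i, wt (y i)) * Fintype.card n)
    (X := fun μ _ b N => (∀ i, ∀ g ∈ St (y i), ∀ h ∈ St (y i), ∃ β : Matrix n ν R,
      b i (g * h) = b i g + a g * b i h + β * N) ∧ ∀ i, ∃ W : Subgroup GQ,
      IsOpen (W : Set GQ) ∧ ∀ g ∈ St (y i), ∀ w ∈ St (y i), w ∈ W → b i (g * w) = b i g)
    (fun _ _ _ _ b N A c => ⟨fun i g hg j hj => (c.1 i g hg j hj).imp fun β e => by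
      simp only [e, Matrix.add_mul, Matrix.mul_assoc], fun i => (c.2 i).imp fun W e =>
        ⟨e.1, fun g hg j hj m => congrArg (· * A) (e.2 g hg j hj m)⟩⟩)
    (fun μ _ b N c m => by
      obtain ⟨g, r, Q, u, w, p, e⟩ := presS c2 h h2 ov un fr
        (fun i g hg j hj => c.1 i g hg.2 j hj.2)
        (fun i => (c.2 i).imp fun W e => ⟨e.1, fun g hg j hj => e.2 g hg.2 j hj.2⟩) m rel
      exact ⟨g, r, Q, u, w, p.min, p.bij, e⟩) _ μ b N ⟨coc, lc⟩ rfl
  exact ⟨g, r, Q, u, w, q, hb, hb.card q h, e⟩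

/-- membership in plain words -/
theorem mem_zs {μ M : Type} [Fintype μ] [AddCommGroup M] [Module R M] {a : GQ → Matrix n n R}
    {b : κ → GQ → Matrix n μ R} {x : (GQ → n → M) × (μ → M)} :
    x ∈ Zs M ⊤ T a P b ↔ (∀ g h, x.1 (g * h) = x.1 g + ac (a g) (x.1 h)) ∧
      (∃ W : Subgroup GQ, IsOpen (W : Set GQ) ∧ ∀ w ∈ W, x.1 w = 0) ∧ (∀ g ∈ In T, x.1 g = 0) ∧
      ∀ i, ∀ g ∈ P i, x.1 g = ac (b i g) x.2 :=
  ⟨fun ⟨h1, _, h3, h4, h5⟩ => ⟨fun g h => h1 g trivial h trivial, h3, h4,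
    fun i g m => h5 i g ⟨trivial, m⟩⟩, fun ⟨h1, h3, h4, h5⟩ => ⟨fun g _ h _ => h1 g h,
      fun g m => (m trivial).elim, h3, h4, fun i g m => h5 i g m.2⟩⟩

end Vale.Agent.P014T.Pq
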